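import Vale.Agent.Helper22.Pyramid

/-!
Free sums of star-shaped compact sets: `fsum A B = {(s a, (1 - s) b) : a ∈ A, b ∈ B, 0 ≤ s ≤ 1}`
inside `ι ⊕ κ → ℝ`, and the integral over a free sum of a product of homogeneous functions.
-/

namespace Vale.Agent.Helper22

open MeasureTheory Set
open scoped Pointwise

noncomputable section

variable {ι κ : Type*} [Fintype ι] [Fintype κ]

/-- Star-shaped with respect to the origin. -/
def StarO {E : Type*} [AddCommMonoid E] [Module ℝ E] (S : Set E) : Prop :=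
  ∀ x ∈ S, ∀ s : ℝ, 0 ≤ s → s ≤ 1 → s • x ∈ S

/-- The free sum of `A ⊆ ℝ^ι` and `B ⊆ ℝ^κ`: all points `(s a, (1 - s) b)` with `a ∈ A`, `b ∈ B`
and `0 ≤ s ≤ 1`. -/
def fsum (A : Set (ι → ℝ)) (B : Set (κ → ℝ)) : Set (ι ⊕ κ → ℝ) :=
  {z | ∃ s : ℝ, 0 ≤ s ∧ s ≤ 1 ∧ ∃ a ∈ A, ∃ b ∈ B, z = Sum.elim (s • a) ((1 - s) • b)}

/-- The parameters `s ∈ [0,1]` with `y ∈ (1 - s) B`. -/
def depthSet (B : Set (κ → ℝ)) (y : κ → ℝ) : Set ℝ :=
  {s | 0 ≤ s ∧ s ≤ 1 ∧ ∃ b ∈ B, y = (1 - s) • b}

/-- The largest `s ∈ [0,1]` with `y ∈ (1 - s) B` (and `0` if there is none). -/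
def depth (B : Set (κ → ℝ)) (y : κ → ℝ) : ℝ := sSup (depthSet B y)

omit [Fintype κ] in
lemma depthSet_subset (B : Set (κ → ℝ)) (y : κ → ℝ) : depthSet B y ⊆ Icc 0 1 :=
  fun _ hs => ⟨hs.1, hs.2.1⟩

omit [Fintype κ] in
lemma isCompact_depthSet {B : Set (κ → ℝ)} (hB : IsCompact B) (y : κ → ℝ) :
    IsCompact (depthSet B y) := by
  have hK : IsCompact ((Icc (0:ℝ) 1 ×ˢ B) ∩ {p : ℝ × (κ → ℝ) | (1 - p.1) • p.2 = y}) := by
    refine (isCompact_Icc.prod hB).inter_right ?_
    exact isClosed_eq (by fun_prop) continuous_const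
  have himg : depthSet B y =
      Prod.fst '' ((Icc (0:ℝ) 1 ×ˢ B) ∩ {p : ℝ × (κ → ℝ) | (1 - p.1) • p.2 = y}) := by
    ext s
    constructor
    · rintro ⟨h0, h1, b, hb, hy⟩
      exact ⟨(s, b), ⟨⟨⟨h0, h1⟩, hb⟩, hy.symm⟩, rfl⟩
    · rintro ⟨p, ⟨⟨⟨h0, h1⟩, hb⟩, hy⟩, rfl⟩
      exact ⟨h0, h1, p.2, hb, hy.symm⟩
  rw [himg]
  exact hK.image continuous_fst

omit [Fintype κ] in
lemma depthSet_down {B : Set (κ → ℝ)} (hstar : StarO B) {y : κ → ℝ} {s s' : ℝ}
    (hs : s ∈ depthSet B y) (h0 : 0 ≤ s') (hle : s' ≤ s) : s' ∈ depthSet B y := by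
  obtain ⟨hs0, hs1, b, hb, hy⟩ := hs
  refine ⟨h0, hle.trans hs1, ?_⟩
  rcases eq_or_lt_of_le (hle.trans hs1) with h1 | h1
  · have : s = 1 := le_antisymm hs1 (h1 ▸ hle)
    exact ⟨b, hb, by rw [hy, this, h1]⟩
  · have hpos : 0 < 1 - s' := by linarith
    refine ⟨((1 - s) / (1 - s')) • b, hstar b hb _ (div_nonneg (by linarith) hpos.le)
      ((div_le_one hpos).2 (by linarith)), ?_⟩
    rw [hy, smul_smul, mul_div_cancel₀ _ hpos.ne']

omit [Fintype κ] in
lemma zero_mem_depthSet_iff {B : Set (κ → ℝ)} {y : κ → ℝ} : (0:ℝ) ∈ depthSet B y ↔ y ∈ B := by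
  constructor
  · rintro ⟨-, -, b, hb, hy⟩
    rw [hy]; simpa using hb
  · intro hy
    exact ⟨le_rfl, zero_le_one, y, hy, by simp⟩

omit [Fintype κ] in
lemma depthSet_nonempty_iff {B : Set (κ → ℝ)} (hstar : StarO B) {y : κ → ℝ} :
    (depthSet B y).Nonempty ↔ y ∈ B := by
  constructor
  · rintro ⟨s, hs⟩
    exact zero_mem_depthSet_iff.1 (depthSet_down hstar hs le_rfl hs.1)
  · intro hy
    exact ⟨0, zero_mem_depthSet_iff.2 hy⟩

omit [Fintype κ] in
lemma depth_nonneg (B : Set (κ → ℝ)) (y : κ → ℝ) : 0 ≤ depth B y :=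
  Real.sSup_nonneg fun _ hs => hs.1

omit [Fintype κ] in
lemma depth_le_one (B : Set (κ → ℝ)) (y : κ → ℝ) : depth B y ≤ 1 :=
  Real.sSup_le (fun _ hs => hs.2.1) zero_le_one

omit [Fintype κ] in
lemma depth_mem {B : Set (κ → ℝ)} (hB : IsCompact B) (hstar : StarO B) {y : κ → ℝ}
    (hy : y ∈ B) : depth B y ∈ depthSet B y :=
  (isCompact_depthSet hB y).sSup_mem ((depthSet_nonempty_iff hstar).2 hy)

omit [Fintype κ] in
lemma mem_depthSet_iff {B : Set (κ → ℝ)} (hB : IsCompact B) (hstar : StarO B) {y : κ → ℝ}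
    (hy : y ∈ B) {s : ℝ} : s ∈ depthSet B y ↔ 0 ≤ s ∧ s ≤ depth B y := by
  constructor
  · intro hs
    exact ⟨hs.1, le_csSup ⟨1, fun _ h => h.2.1⟩ hs⟩
  · rintro ⟨h0, hle⟩
    exact depthSet_down hstar (depth_mem hB hstar hy) h0 hle

omit [Fintype κ] in
lemma le_depth_iff {B : Set (κ → ℝ)} (hB : IsCompact B) (hstar : StarO B) {y : κ → ℝ}
    {t : ℝ} (ht0 : 0 < t) (ht1 : t ≤ 1) : t ≤ depth B y ↔ y ∈ (1 - t) • B := by
  constructor
  · intro hle
    have hne : (depthSet B y).Nonempty := by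
      by_contra hempty
      rw [not_nonempty_iff_eq_empty] at hempty
      have : depth B y = 0 := by rw [depth, hempty, Real.sSup_empty]
      linarith
    have hy : y ∈ B := (depthSet_nonempty_iff hstar).1 hne
    obtain ⟨-, -, b, hb, hyb⟩ := (mem_depthSet_iff hB hstar hy).2 ⟨ht0.le, hle⟩
    exact ⟨b, hb, hyb.symm⟩
  · rintro ⟨b, hb, hyb⟩
    exact le_csSup ⟨1, fun _ h => h.2.1⟩ ⟨ht0.le, ht1, b, hb, hyb.symm⟩

lemma measurable_depth {B : Set (κ → ℝ)} (hB : IsCompact B) (hstar : StarO B) :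
    Measurable (depth B) := by
  refine measurable_of_Ici fun t => ?_
  rcases le_or_gt t 0 with ht | ht
  · have : depth B ⁻¹' Ici t = univ := by
      ext y
      simp only [mem_preimage, mem_Ici, mem_univ, iff_true]
      exact ht.trans (depth_nonneg B y)
    rw [this]; exact MeasurableSet.univ
  · rcases le_or_gt t 1 with ht1 | ht1
    · have : depth B ⁻¹' Ici t = (1 - t) • B := by
        ext y
        simp only [mem_preimage, mem_Ici]
        exact le_depth_iff hB hstar ht ht1
      rw [this]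
      exact (hB.smul (1 - t)).isClosed.measurableSet
    · have : depth B ⁻¹' Ici t = ∅ := by
        ext y
        simp only [mem_preimage, mem_Ici, mem_empty_iff_false, iff_false, not_le]
        exact lt_of_le_of_lt (depth_le_one B y) ht1
      rw [this]; exact MeasurableSet.empty

omit [Fintype ι] [Fintype κ] in
/-- Sections of the free sum. -/
lemma mem_fsum_iff {A : Set (ι → ℝ)} {B : Set (κ → ℝ)} (hA : StarO A) (hB : IsCompact B)
    (hstar : StarO B) (x : ι → ℝ) (y : κ → ℝ) :
    Sum.elim x y ∈ fsum A B ↔ y ∈ B ∧ x ∈ depth B y • A := by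
  constructor
  · rintro ⟨s, hs0, hs1, a, ha, b, hb, hz⟩
    have hx : x = s • a := by
      funext i
      have := congrFun hz (Sum.inl i)
      simpa using this
    have hy : y = (1 - s) • b := by
      funext j
      have := congrFun hz (Sum.inr j)
      simpa using this
    have hsd : s ∈ depthSet B y := ⟨hs0, hs1, b, hb, hy⟩
    have hyB : y ∈ B := (depthSet_nonempty_iff hstar).1 ⟨s, hsd⟩
    refine ⟨hyB, ?_⟩
    have hle := ((mem_depthSet_iff hB hstar hyB).1 hsd).2
    rcases eq_or_lt_of_le (depth_nonneg B y) with h0 | hpos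
    · have hs : s = 0 := le_antisymm (h0 ▸ hle) hs0
      refine ⟨a, ha, ?_⟩
      rw [hx, hs, ← h0]
    · refine ⟨(s / depth B y) • a, hA a ha _ (div_nonneg hs0 hpos.le) ((div_le_one hpos).2 hle), ?_⟩
      show depth B y • (s / depth B y) • a = x
      rw [hx, smul_smul, mul_div_cancel₀ _ hpos.ne']
  · rintro ⟨hy, a, ha, rfl⟩
    obtain ⟨h0, h1, b, hb, hyb⟩ := depth_mem hB hstar hy
    exact ⟨depth B y, h0, h1, a, ha, b, hb, by rw [← hyb]⟩

omit [Fintype ι] [Fintype κ] in
lemma isCompact_fsum {A : Set (ι → ℝ)} {B : Set (κ → ℝ)} (hA : IsCompact A) (hB : IsCompact B) :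
    IsCompact (fsum A B) := by
  have himg : fsum A B = (fun p : ℝ × (ι → ℝ) × (κ → ℝ) =>
      (Sum.elim (p.1 • p.2.1) ((1 - p.1) • p.2.2) : ι ⊕ κ → ℝ)) '' (Icc (0:ℝ) 1 ×ˢ A ×ˢ B) := by
    ext z
    constructor
    · rintro ⟨s, h0, h1, a, ha, b, hb, rfl⟩
      exact ⟨(s, a, b), ⟨⟨h0, h1⟩, ha, hb⟩, rfl⟩
    · rintro ⟨⟨s, a, b⟩, ⟨⟨h0, h1⟩, ha, hb⟩, rfl⟩
      exact ⟨s, h0, h1, a, ha, b, hb, rfl⟩
  rw [himg]
  refine (isCompact_Icc.prod (hA.prod hB)).image ?_
  refine continuous_pi fun i => ?_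
  cases i with
  | inl i =>
    simp only [Sum.elim_inl, Pi.smul_apply, smul_eq_mul]
    fun_prop
  | inr j =>
    simp only [Sum.elim_inr, Pi.smul_apply, smul_eq_mul]
    fun_prop

/-- Fubini for `ℝ^(ι ⊕ κ) = ℝ^ι × ℝ^κ`. -/
lemma integral_sum_pi2 (F : (ι ⊕ κ → ℝ) → ℝ) (hF : Integrable F) :
    ∫ z, F z = ∫ y : κ → ℝ, ∫ x : ι → ℝ, F (Sum.elim x y) := by
  have he := volume_measurePreserving_sumPiEquivProdPi_symm (fun _ : ι ⊕ κ => ℝ)
  have h1 : ∫ z, F z = ∫ p : (ι → ℝ) × (κ → ℝ),
      F ((MeasurableEquiv.sumPiEquivProdPi (fun _ : ι ⊕ κ => ℝ)).symm p) :=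
    (he.integral_comp' F).symm
  have hint : Integrable (fun p : (ι → ℝ) × (κ → ℝ) =>
      F ((MeasurableEquiv.sumPiEquivProdPi (fun _ : ι ⊕ κ => ℝ)).symm p))
      ((volume : Measure (ι → ℝ)).prod (volume : Measure (κ → ℝ))) :=
    (he.integrable_comp_emb (MeasurableEquiv.measurableEmbedding _)).2 hF
  have h2 := integral_prod_symm _ hint
  refine h1.trans (h2.trans ?_)
  refine integral_congr_ae (Filter.Eventually.of_forall fun y => ?_)
  refine integral_congr_ae (Filter.Eventually.of_forall fun x => ?_)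
  show F _ = F _
  congr 1

/-- Integral of a homogeneous function over a dilate. -/
lemma setIntegral_smul_set [Nonempty ι] (A : Set (ι → ℝ)) (G : (ι → ℝ) → ℝ) (d : ℕ)
    (hG : ∀ (c : ℝ) (x : ι → ℝ), G (c • x) = c ^ d * G x) {c : ℝ} (hc : 0 ≤ c) :
    ∫ x in c • A, G x = c ^ (Fintype.card ι + d) * ∫ x in A, G x := by
  rcases eq_or_lt_of_le hc with h0 | hpos
  · rw [← h0]
    have hcard : 0 < Fintype.card ι := Fintype.card_pos
    rw [zero_pow (by omega), zero_mul]
    have hsub : (0:ℝ) • A ⊆ {(0 : ι → ℝ)} := by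
      rintro _ ⟨a, -, rfl⟩
      simp
    have hnull : (volume : Measure (ι → ℝ)) ((0:ℝ) • A) = 0 :=
      measure_mono_null hsub (by simp)
    rw [Measure.restrict_eq_zero.2 hnull, integral_zero_measure]
  · have h := Measure.setIntegral_comp_smul_of_pos (volume : Measure (ι → ℝ)) G A hpos
    simp_rw [hG] at h
    rw [integral_const_mul, Module.finrank_fintype_fun_eq_card, smul_eq_mul] at h
    have hne : c ^ Fintype.card ι ≠ 0 := pow_ne_zero _ hpos.ne'
    rw [pow_add]
    have h2 : ∫ x in c • A, G x = c ^ Fintype.card ι * (c ^ d * ∫ x in A, G x) := by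
      rw [h]
      field_simp
    rw [h2]; ring

/-- First Fubini step: integrate over the sections `depth(y) • A`. -/
lemma integral_fsum_aux [Nonempty ι] {A : Set (ι → ℝ)} {B : Set (κ → ℝ)} (hA : IsCompact A)
    (hAs : StarO A) (hB : IsCompact B) (hBs : StarO B)
    (G : (ι → ℝ) → ℝ) (hGc : Continuous G) (d : ℕ)
    (hG : ∀ (c : ℝ) (x : ι → ℝ), G (c • x) = c ^ d * G x)
    (H : (κ → ℝ) → ℝ) (hHc : Continuous H) :
    ∫ z in fsum A B, G (fun i => z (Sum.inl i)) * H (fun j => z (Sum.inr j)) =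
      (∫ x in A, G x) * ∫ y in B, H y * depth B y ^ (Fintype.card ι + d) := by
  set F : (ι ⊕ κ → ℝ) → ℝ :=
    fun z => G (fun i => z (Sum.inl i)) * H (fun j => z (Sum.inr j)) with hF
  have hFc : Continuous F := by
    refine (hGc.comp ?_).mul (hHc.comp ?_)
    · exact continuous_pi fun i => continuous_apply _
    · exact continuous_pi fun j => continuous_apply _
  have hcomp := isCompact_fsum hA hB
  have hmeas : MeasurableSet (fsum A B) := hcomp.isClosed.measurableSet
  have hint : IntegrableOn F (fsum A B) := hFc.continuousOn.integrableOn_compact hcomp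
  rw [← integral_indicator hmeas, integral_sum_pi2 _ (hint.integrable_indicator hmeas)]
  have hinner : ∀ y : κ → ℝ, ∫ x : ι → ℝ, (fsum A B).indicator F (Sum.elim x y) =
      B.indicator (fun y => (H y * depth B y ^ (Fintype.card ι + d)) * ∫ x in A, G x) y := by
    intro y
    by_cases hy : y ∈ B
    · rw [indicator_of_mem hy]
      have hcong : ∀ x : ι → ℝ, (fsum A B).indicator F (Sum.elim x y) =
          (depth B y • A).indicator (fun x => G x * H y) x := by
        intro x
        by_cases hx : x ∈ depth B y • A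
        · rw [indicator_of_mem hx, indicator_of_mem ((mem_fsum_iff hAs hB hBs x y).2 ⟨hy, hx⟩)]
          rfl
        · rw [indicator_of_notMem hx, indicator_of_notMem]
          intro h
          exact hx ((mem_fsum_iff hAs hB hBs x y).1 h).2
      rw [integral_congr_ae (Filter.Eventually.of_forall hcong)]
      rw [integral_indicator ((hA.smul _).isClosed.measurableSet), integral_mul_const,
        setIntegral_smul_set A G d hG (depth_nonneg B y)]
      ring
    · rw [indicator_of_notMem hy]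
      have hz : ∀ x : ι → ℝ, (fsum A B).indicator F (Sum.elim x y) = 0 := by
        intro x
        apply indicator_of_notMem
        intro h
        exact hy ((mem_fsum_iff hAs hB hBs x y).1 h).1
      simp [hz]
  simp_rw [hinner]
  rw [integral_indicator hB.isClosed.measurableSet, integral_mul_const, mul_comm]

/-- Second Fubini step (radial layer cake): integrals of a homogeneous function against powers
of the depth function. -/
lemma integral_depth_pow [Nonempty κ] {B : Set (κ → ℝ)} (hB : IsCompact B) (hBs : StarO B)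
    (H : (κ → ℝ) → ℝ) (hHc : Continuous H) (e : ℕ)
    (hH : ∀ (c : ℝ) (y : κ → ℝ), H (c • y) = c ^ e * H y) (K : ℕ) :
    ∫ y in B, H y * depth B y ^ (K + 1) =
      (∫ y in B, H y) *
        ∫ t in (0:ℝ)..1, ((K:ℝ) + 1) * t ^ K * (1 - t) ^ (Fintype.card κ + e) := by
  set S : Set ((κ → ℝ) × ℝ) := {p | p.2 ≤ depth B p.1} with hS
  have hSm : MeasurableSet S :=
    measurableSet_le measurable_snd ((measurable_depth hB hBs).comp measurable_fst)
  set g : (κ → ℝ) × ℝ → ℝ := fun p => H p.1 * (((K:ℝ) + 1) * p.2 ^ K) with hg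
  have hgc : Continuous g := by fun_prop
  set f : (κ → ℝ) → ℝ → ℝ := fun y t => S.indicator g (y, t) with hf
  have hfint : Integrable (Function.uncurry f)
      (((volume : Measure (κ → ℝ)).restrict B).prod ((volume : Measure ℝ).restrict (Ioc 0 1))) := by
    have hunc : Function.uncurry f = S.indicator g := by
      funext p
      rfl
    rw [hunc, Measure.prod_restrict]
    refine Integrable.indicator ?_ hSm
    have hc : IsCompact (B ×ˢ Icc (0:ℝ) 1) := hB.prod isCompact_Icc
    exact (hgc.continuousOn.integrableOn_compact hc).mono_set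
      (prod_mono_right Ioc_subset_Icc_self)
  have hswap := integral_integral_swap hfint
  have hleft : ∀ y : κ → ℝ, ∫ t in Ioc (0:ℝ) 1, f y t = H y * depth B y ^ (K + 1) := by
    intro y
    have h1 : ∀ t : ℝ, f y t =
        (Iic (depth B y)).indicator (fun t => H y * (((K:ℝ) + 1) * t ^ K)) t := by
      intro t
      by_cases ht : t ≤ depth B y
      · show S.indicator g (y, t) = _
        rw [indicator_of_mem (show ((y, t) : (κ → ℝ) × ℝ) ∈ S from ht),
          indicator_of_mem (show t ∈ Iic (depth B y) from ht)]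
      · show S.indicator g (y, t) = _
        rw [indicator_of_notMem (show ((y, t) : (κ → ℝ) × ℝ) ∉ S from ht),
          indicator_of_notMem (show t ∉ Iic (depth B y) from ht)]
    simp_rw [h1]
    rw [setIntegral_indicator measurableSet_Iic]
    have hset : Ioc (0:ℝ) 1 ∩ Iic (depth B y) = Ioc 0 (depth B y) := by
      ext t
      simp only [mem_inter_iff, mem_Ioc, mem_Iic]
      constructor
      · rintro ⟨⟨h0, -⟩, h2⟩
        exact ⟨h0, h2⟩
      · rintro ⟨h0, h2⟩
        exact ⟨⟨h0, h2.trans (depth_le_one B y)⟩, h2⟩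
    rw [hset, ← intervalIntegral.integral_of_le (depth_nonneg B y),
      intervalIntegral.integral_const_mul, intervalIntegral.integral_const_mul, integral_pow]
    have hK : (K:ℝ) + 1 ≠ 0 := by positivity
    rw [zero_pow (Nat.succ_ne_zero K)]
    field_simp
    ring
  have hright : ∀ t ∈ Ioc (0:ℝ) 1, ∫ y in B, f y t =
      (((K:ℝ) + 1) * t ^ K * (1 - t) ^ (Fintype.card κ + e)) * ∫ y in B, H y := by
    intro t ht
    have h1 : ∀ y : κ → ℝ, f y t =
        ((1 - t) • B).indicator (fun y => H y * (((K:ℝ) + 1) * t ^ K)) y := by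
      intro y
      by_cases hy : y ∈ (1 - t) • B
      · show S.indicator g (y, t) = _
        rw [indicator_of_mem
          (show ((y, t) : (κ → ℝ) × ℝ) ∈ S from (le_depth_iff hB hBs ht.1 ht.2).2 hy),
          indicator_of_mem hy]
      · show S.indicator g (y, t) = _
        rw [indicator_of_notMem
          (show ((y, t) : (κ → ℝ) × ℝ) ∉ S from fun h => hy ((le_depth_iff hB hBs ht.1 ht.2).1 h)),
          indicator_of_notMem hy]
    simp_rw [h1]
    rw [setIntegral_indicator ((hB.smul _).isClosed.measurableSet)]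
    have hsub : B ∩ (1 - t) • B = (1 - t) • B := by
      apply inter_eq_right.2
      rintro _ ⟨b, hb, rfl⟩
      exact hBs b hb _ (by linarith [ht.2]) (by linarith [ht.1])
    rw [hsub, integral_mul_const, setIntegral_smul_set B H e hH (by linarith [ht.2])]
    ring
  calc ∫ y in B, H y * depth B y ^ (K + 1)
      = ∫ y in B, ∫ t in Ioc (0:ℝ) 1, f y t := by
        refine integral_congr_ae (Filter.Eventually.of_forall fun y => ?_)
        exact (hleft y).symm
    _ = ∫ t in Ioc (0:ℝ) 1, ∫ y in B, f y t := hswap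
    _ = ∫ t in Ioc (0:ℝ) 1,
          (((K:ℝ) + 1) * t ^ K * (1 - t) ^ (Fintype.card κ + e)) * ∫ y in B, H y :=
        setIntegral_congr_fun measurableSet_Ioc hright
    _ = _ := by
        rw [integral_mul_const, mul_comm, intervalIntegral.integral_of_le zero_le_one]

/-- The Beta integral at natural numbers. -/
lemma beta_int : ∀ a b : ℕ, ∫ t in (0:ℝ)..1, t ^ a * (1 - t) ^ b =
    (a.factorial : ℝ) * b.factorial / ((a + b + 1).factorial : ℝ)
  | 0, b => by
    have h := int_one_sub_pow b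
    simp only [pow_zero, one_mul, Nat.factorial_zero, Nat.cast_one, zero_add]
    rw [h, Nat.factorial_succ]
    have hb : (b.factorial : ℝ) ≠ 0 := by positivity
    push_cast
    field_simp
  | a + 1, b => by
    have ih := beta_int a (b + 1)
    have hderiv : ∀ t ∈ uIcc (0:ℝ) 1, HasDerivAt (fun t : ℝ => t ^ (a + 1) * (1 - t) ^ (b + 1))
        (((a:ℝ) + 1) * (t ^ a * (1 - t) ^ (b + 1)) -
          ((b:ℝ) + 1) * (t ^ (a + 1) * (1 - t) ^ b)) t := by
      intro t _
      have h1 : HasDerivAt (fun t : ℝ => t ^ (a + 1)) (((a:ℝ) + 1) * t ^ a) t := by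
        simpa using hasDerivAt_pow (a + 1) t
      have h2 : HasDerivAt (fun t : ℝ => (1 - t) ^ (b + 1)) (-(((b:ℝ) + 1) * (1 - t) ^ b)) t := by
        have h3 : HasDerivAt (fun t : ℝ => 1 - t) (-1) t := by
          have h5 := (hasDerivAt_const t (1:ℝ)).sub (hasDerivAt_id t)
          rw [zero_sub] at h5
          exact h5
        have h4 := h3.pow (b + 1)
        refine h4.congr_deriv ?_
        simp
      refine (h1.mul h2).congr_deriv ?_
      ring
    have hint : IntervalIntegrable (fun t : ℝ => ((a:ℝ) + 1) * (t ^ a * (1 - t) ^ (b + 1)) -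
          ((b:ℝ) + 1) * (t ^ (a + 1) * (1 - t) ^ b)) volume 0 1 := by
      apply Continuous.intervalIntegrable
      fun_prop
    have h := intervalIntegral.integral_eq_sub_of_hasDerivAt hderiv hint
    rw [intervalIntegral.integral_sub, intervalIntegral.integral_const_mul,
      intervalIntegral.integral_const_mul, ih] at h
    · simp only [ne_eq, Nat.add_eq_zero_iff, one_ne_zero, and_false, not_false_eq_true, zero_pow,
        zero_mul, sub_self, mul_zero, one_pow] at h
      have hb : ((b:ℝ) + 1) ≠ 0 := by positivity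
      have hval : ∫ t in (0:ℝ)..1, t ^ (a + 1) * (1 - t) ^ b =
          ((a:ℝ) + 1) * ((a.factorial : ℝ) * (b + 1).factorial /
            ((a + (b + 1) + 1).factorial : ℝ)) / ((b:ℝ) + 1) := by
        rw [eq_div_iff hb]
        linarith
      rw [hval, show a + 1 + b + 1 = a + (b + 1) + 1 from by ring, Nat.factorial_succ a,
        Nat.factorial_succ b]
      push_cast
      field_simp
    · apply Continuous.intervalIntegrable
      fun_prop
    · apply Continuous.intervalIntegrable
      fun_prop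

/-- The coefficient of the free-sum integral formula. -/
lemma beta_coeff (K N : ℕ) :
    ∫ t in (0:ℝ)..1, ((K:ℝ) + 1) * t ^ K * (1 - t) ^ N =
      ((K + 1).factorial : ℝ) * N.factorial / ((K + 1 + N).factorial : ℝ) := by
  have h := beta_int K N
  simp_rw [mul_assoc]
  rw [intervalIntegral.integral_const_mul, h, Nat.factorial_succ K,
    show K + 1 + N = K + N + 1 from by ring]
  push_cast
  ring

/-- The integral over a free sum of a product of homogeneous functions. -/
theorem integral_fsum [Nonempty ι] [Nonempty κ] {A : Set (ι → ℝ)} {B : Set (κ → ℝ)}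
    (hA : IsCompact A) (hAs : StarO A) (hB : IsCompact B) (hBs : StarO B)
    (G : (ι → ℝ) → ℝ) (hGc : Continuous G) (d : ℕ)
    (hG : ∀ (c : ℝ) (x : ι → ℝ), G (c • x) = c ^ d * G x)
    (H : (κ → ℝ) → ℝ) (hHc : Continuous H) (e : ℕ)
    (hH : ∀ (c : ℝ) (y : κ → ℝ), H (c • y) = c ^ e * H y) :
    ∫ z in fsum A B, G (fun i => z (Sum.inl i)) * H (fun j => z (Sum.inr j)) =
      (∫ x in A, G x) * (∫ y in B, H y) *
        (((Fintype.card ι + d).factorial : ℝ) * (Fintype.card κ + e).factorial /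
          ((Fintype.card ι + d + (Fintype.card κ + e)).factorial : ℝ)) := by
  rw [integral_fsum_aux hA hAs hB hBs G hGc d hG H hHc]
  have hcard : 0 < Fintype.card ι := Fintype.card_pos
  obtain ⟨K, hK⟩ : ∃ K, Fintype.card ι + d = K + 1 := ⟨Fintype.card ι + d - 1, by omega⟩
  rw [hK, integral_depth_pow hB hBs H hHc e hH K, beta_coeff]
  ring

end

end Vale.Agent.Helper22
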