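import Vale.Agent.Helper22.GeoSpec

/-!
P138: a reversible stochastic matrix is conjugate to a symmetric matrix; spectral moments in the
weighted inner product.
-/

namespace Vale.Agent.Helper22.GeoChain

open Finset Matrix
open Vale.Agent.Helper22.GeoSpec

variable {n : ℕ}

/-- The symmetrized matrix `sqrt(p i) * A i j / sqrt(p j)` (zero where `p j = 0`). -/
noncomputable def symM (p : Fin n → ℝ) (A : Matrix (Fin n) (Fin n) ℝ) :
    Matrix (Fin n) (Fin n) ℝ :=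
  fun i j => Real.sqrt (p i) * A i j * (Real.sqrt (p j))⁻¹

/-- Multiplication by `sqrt p`. -/
noncomputable def dv (p : Fin n → ℝ) (f : Fin n → ℝ) : Fin n → ℝ :=
  fun i => Real.sqrt (p i) * f i

lemma symM_apply (p : Fin n → ℝ) (A : Matrix (Fin n) (Fin n) ℝ) (i j : Fin n) :
    symM p A i j = Real.sqrt (p i) * A i j * (Real.sqrt (p j))⁻¹ := rfl

lemma symM_symm (p : Fin n → ℝ) (A : Matrix (Fin n) (Fin n) ℝ) (hp : ∀ i, 0 ≤ p i)
    (hrev : ∀ i j, p i * A i j = p j * A j i) (i j : Fin n) :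
    symM p A j i = symM p A i j := by
  rw [symM_apply, symM_apply]
  rcases (hp i).eq_or_lt with hi | hi
  · rw [← hi]; simp
  rcases (hp j).eq_or_lt with hj | hj
  · rw [← hj]; simp
  have hsi : 0 < Real.sqrt (p i) := Real.sqrt_pos.mpr hi
  have hsj : 0 < Real.sqrt (p j) := Real.sqrt_pos.mpr hj
  have e1 : Real.sqrt (p i) ^ 2 = p i := Real.sq_sqrt (hp i)
  have e2 : Real.sqrt (p j) ^ 2 = p j := Real.sq_sqrt (hp j)
  have h := hrev i j
  rw [← e1, ← e2] at h
  field_simp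
  linarith

lemma symM_hermitian (p : Fin n → ℝ) (A : Matrix (Fin n) (Fin n) ℝ) (hp : ∀ i, 0 ≤ p i)
    (hrev : ∀ i j, p i * A i j = p j * A j i) : (symM p A).IsHermitian := by
  apply Matrix.IsHermitian.ext
  intro i j
  rw [star_trivial]
  exact symM_symm p A hp hrev i j

lemma intertwine (p : Fin n → ℝ) (A : Matrix (Fin n) (Fin n) ℝ) (hp : ∀ i, 0 ≤ p i)
    (hrev : ∀ i j, p i * A i j = p j * A j i) (f : Fin n → ℝ) :
    symM p A *ᵥ dv p f = dv p (A *ᵥ f) := by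
  funext i
  simp only [mulVec, dotProduct, dv, symM_apply]
  rw [Finset.mul_sum]
  apply Finset.sum_congr rfl
  intro j _
  rcases (hp j).eq_or_lt with hj | hj
  · have h := hrev i j
    rw [← hj, zero_mul] at h
    rcases mul_eq_zero.mp h with h0 | h0
    · rw [← hj, h0]; simp
    · rw [← hj, h0]; simp
  · have hsj : 0 < Real.sqrt (p j) := Real.sqrt_pos.mpr hj
    field_simp

lemma intertwine_pow (p : Fin n → ℝ) (A : Matrix (Fin n) (Fin n) ℝ) (hp : ∀ i, 0 ≤ p i)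
    (hrev : ∀ i j, p i * A i j = p j * A j i) (f : Fin n → ℝ) (s : ℕ) :
    symM p A ^ s *ᵥ dv p f = dv p (A ^ s *ᵥ f) := by
  induction s with
  | zero => simp
  | succ s ih =>
    rw [pow_succ', ← Matrix.mulVec_mulVec, ih, intertwine p A hp hrev, pow_succ',
      ← Matrix.mulVec_mulVec]

lemma form_bound (p : Fin n → ℝ) (A : Matrix (Fin n) (Fin n) ℝ) (hp : ∀ i, 0 ≤ p i)
    (hA : ∀ i j, 0 ≤ A i j) (hrow : ∀ i, ∑ j, A i j = 1)
    (hrev : ∀ i j, p i * A i j = p j * A j i) (g : Fin n → ℝ) :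
    |g ⬝ᵥ (symM p A *ᵥ g)| ≤ g ⬝ᵥ g := by
  have hterm : ∀ i j, |g i * (symM p A i j * g j)| ≤ (A i j * g i ^ 2 + A j i * g j ^ 2) / 2 := by
    intro i j
    have hnn : 0 ≤ (A i j * g i ^ 2 + A j i * g j ^ 2) / 2 := by
      have := mul_nonneg (hA i j) (sq_nonneg (g i))
      have := mul_nonneg (hA j i) (sq_nonneg (g j))
      linarith
    rw [symM_apply]
    rcases (hp i).eq_or_lt with hi | hi
    · rw [← hi]; simpa using hnn
    rcases (hp j).eq_or_lt with hj | hj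
    · rw [← hj]; simpa using hnn
    have hsi : 0 < Real.sqrt (p i) := Real.sqrt_pos.mpr hi
    have hsj : 0 < Real.sqrt (p j) := Real.sqrt_pos.mpr hj
    have e1 : Real.sqrt (p i) ^ 2 = p i := Real.sq_sqrt (hp i)
    have e2 : Real.sqrt (p j) ^ 2 = p j := Real.sq_sqrt (hp j)
    obtain ⟨r, hr⟩ : ∃ r : ℝ, r = Real.sqrt (p i) * (Real.sqrt (p j))⁻¹ := ⟨_, rfl⟩
    have hAji : A j i = A i j * r ^ 2 := by
      have h := hrev i j
      rw [← e1, ← e2] at h
      rw [hr]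
      field_simp
      linarith
    have hM : Real.sqrt (p i) * A i j * (Real.sqrt (p j))⁻¹ = A i j * r := by
      rw [hr]; ring
    rw [hM, hAji, abs_le]
    constructor
    · nlinarith [mul_nonneg (hA i j) (sq_nonneg (g i + r * g j))]
    · nlinarith [mul_nonneg (hA i j) (sq_nonneg (g i - r * g j))]
  have hexp : g ⬝ᵥ (symM p A *ᵥ g) = ∑ i, ∑ j, g i * (symM p A i j * g j) := by
    simp only [mulVec, dotProduct]
    apply Finset.sum_congr rfl
    intro i _
    rw [Finset.mul_sum]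
  have hsum : ∑ i, ∑ j, (A i j * g i ^ 2 + A j i * g j ^ 2) / 2 = g ⬝ᵥ g := by
    have h1 : ∑ i, ∑ j, A i j * g i ^ 2 = ∑ i, g i ^ 2 := by
      apply Finset.sum_congr rfl
      intro i _
      rw [← Finset.sum_mul, hrow, one_mul]
    have h2 : ∑ i, ∑ j, A j i * g j ^ 2 = ∑ i, g i ^ 2 := by
      rw [Finset.sum_comm]
      exact h1
    have h3 : ∑ i, ∑ j, (A i j * g i ^ 2 + A j i * g j ^ 2) / 2
        = (∑ i, ∑ j, A i j * g i ^ 2 + ∑ i, ∑ j, A j i * g j ^ 2) / 2 := by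
      rw [← Finset.sum_add_distrib, Finset.sum_div]
      apply Finset.sum_congr rfl
      intro i _
      rw [← Finset.sum_add_distrib, Finset.sum_div]
    rw [h3, h1, h2]
    simp only [dotProduct]
    rw [← two_mul, mul_div_cancel_left₀ _ (two_ne_zero)]
    apply Finset.sum_congr rfl
    intro i _
    ring
  rw [hexp, ← hsum]
  calc |∑ i, ∑ j, g i * (symM p A i j * g j)|
      ≤ ∑ i, |∑ j, g i * (symM p A i j * g j)| := Finset.abs_sum_le_sum_abs _ _
    _ ≤ ∑ i, ∑ j, |g i * (symM p A i j * g j)| :=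
        Finset.sum_le_sum fun i _ => Finset.abs_sum_le_sum_abs _ _
    _ ≤ ∑ i, ∑ j, (A i j * g i ^ 2 + A j i * g j ^ 2) / 2 :=
        Finset.sum_le_sum fun i _ => Finset.sum_le_sum fun j _ => hterm i j

/-- Spectral moments of a reversible stochastic matrix in the weighted inner product. -/
lemma moments_chain (p : Fin n → ℝ) (A : Matrix (Fin n) (Fin n) ℝ) (hp : ∀ i, 0 ≤ p i)
    (hA : ∀ i j, 0 ≤ A i j) (hrow : ∀ i, ∑ j, A i j = 1)
    (hrev : ∀ i j, p i * A i j = p j * A j i) (f : Fin n → ℝ) :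
    ∃ (w l : Fin n → ℝ), (∀ j, 0 ≤ w j) ∧ (∀ j, -1 ≤ l j ∧ l j ≤ 1) ∧
      ∀ a b : ℕ, ∑ i, p i * ((A ^ a *ᵥ f) i * (A ^ b *ᵥ f) i) = ∑ j, w j * l j ^ (a + b) := by
  obtain ⟨w, l, hw, hl, hmom⟩ := moments_symm (symM p A) (symM_hermitian p A hp hrev)
    (form_bound p A hp hA hrow hrev) (dv p f)
  refine ⟨w, l, hw, hl, ?_⟩
  intro a b
  rw [← hmom a b, intertwine_pow p A hp hrev, intertwine_pow p A hp hrev]
  simp only [dotProduct, dv]
  apply Finset.sum_congr rfl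
  intro i _
  have e1 : Real.sqrt (p i) * Real.sqrt (p i) = p i := Real.mul_self_sqrt (hp i)
  calc p i * ((A ^ a *ᵥ f) i * (A ^ b *ᵥ f) i)
      = (Real.sqrt (p i) * Real.sqrt (p i)) * ((A ^ a *ᵥ f) i * (A ^ b *ᵥ f) i) := by rw [e1]
    _ = Real.sqrt (p i) * (A ^ a *ᵥ f) i * (Real.sqrt (p i) * (A ^ b *ᵥ f) i) := by ring

end Vale.Agent.Helper22.GeoChain
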