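import Vale.Agent.Helper22.GeoLine

/-!
P138: configurations on a straight line of a real normed space; nonnegativity of the right-hand
side of the cotype inequality.
-/

namespace Vale.Agent.Helper22.GeoFinal

open Finset Matrix
open Vale.Agent.Helper22.TwoState Vale.Agent.Helper22.GeoLine

variable {n : ℕ}

/-- The right-hand side of the cotype inequality is nonnegative. -/
lemma rhs_nonneg_gen {X : Type*} [PseudoMetricSpace X] (t : ℕ) (p : Fin n → ℝ)
    (A : Matrix (Fin n) (Fin n) ℝ) (hp : ∀ i, 0 ≤ p i) (hA : ∀ i j, 0 ≤ A i j) (x : Fin n → X) :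
    0 ≤ ∑ i, ∑ j, p i * ((1 / (t : ℝ)) * ∑ s ∈ Finset.Icc 1 t, (A ^ s) i j)
      * dist (x i) (x j) ^ 2 := by
  refine Finset.sum_nonneg fun i _ => Finset.sum_nonneg fun j _ => ?_
  refine mul_nonneg (mul_nonneg (hp i) (mul_nonneg (by positivity) ?_)) (sq_nonneg _)
  exact Finset.sum_nonneg fun s _ => pow_entry_nonneg A hA s i j

/-- Points on a straight line lie on a geodesic segment (given a unit vector for the degenerate
case). -/
lemma exists_geodesic_line {E : Type*} [NormedAddCommGroup E] [NormedSpace ℝ E] (e : E)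
    (he : ‖e‖ = 1) (x : Fin n → E) (q v : E) (c : Fin n → ℝ) (hx : ∀ i, x i = q + c i • v) :
    ∃ (lo hi : ℝ) (γ : ℝ → E),
      (∀ a ∈ Set.Icc lo hi, ∀ b ∈ Set.Icc lo hi, dist (γ a) (γ b) = |a - b|) ∧
      ∀ i, ∃ a ∈ Set.Icc lo hi, x i = γ a := by
  by_cases hv : v = 0
  · refine ⟨0, 0, fun a => q + a • e, ?_, ?_⟩
    · intro a _ b _
      simp only
      rw [dist_eq_norm, add_sub_add_left_eq_sub, ← sub_smul, norm_smul, Real.norm_eq_abs, he,
        mul_one]
    · intro i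
      refine ⟨0, ⟨le_refl _, le_refl _⟩, ?_⟩
      simp only
      rw [hx i, hv, smul_zero, zero_smul]
  · have hv0 : 0 < ‖v‖ := norm_pos_iff.mpr hv
    obtain ⟨R, hR⟩ : ∃ R : ℝ, R = ∑ i, |c i * ‖v‖| := ⟨_, rfl⟩
    have hRi : ∀ i, |c i * ‖v‖| ≤ R := by
      intro i
      rw [hR]
      exact Finset.single_le_sum (f := fun i => |c i * ‖v‖|) (fun k _ => abs_nonneg _)
        (Finset.mem_univ i)
    refine ⟨-R, R, fun a => q + (a / ‖v‖) • v, ?_, ?_⟩
    · intro a _ b _
      simp only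
      rw [dist_eq_norm, add_sub_add_left_eq_sub, ← sub_smul, norm_smul, Real.norm_eq_abs,
        ← sub_div, abs_div, abs_norm, div_mul_cancel₀ _ hv0.ne']
    · intro i
      refine ⟨c i * ‖v‖, ⟨(abs_le.mp (hRi i)).1, (abs_le.mp (hRi i)).2⟩, ?_⟩
      simp only
      rw [hx i, mul_div_cancel_right₀ _ hv0.ne']

/-- Metric Markov cotype two with the sharp constant for configurations on a straight line of a
real normed space. -/
theorem line_cotype {E : Type*} [NormedAddCommGroup E] [NormedSpace ℝ E] (t : ℕ) (ht : 1 ≤ t)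
    (p : Fin n → ℝ) (A : Matrix (Fin n) (Fin n) ℝ) (hp : ∀ i, 0 ≤ p i)
    (hA : ∀ i j, 0 ≤ A i j) (hrow : ∀ i, ∑ j, A i j = 1)
    (hrev : ∀ i j, p i * A i j = p j * A j i) (x : Fin n → E) (q v : E) (c : Fin n → ℝ)
    (hx : ∀ i, x i = q + c i • v) :
    ∃ y : Fin n → E,
      ∑ i, p i * dist (x i) (y i) ^ 2
          + (t : ℝ) * ∑ i, ∑ j, p i * A i j * dist (y i) (y j) ^ 2
        ≤ 2 * ∑ i, ∑ j,
            p i * ((1 / (t : ℝ)) * ∑ s ∈ Finset.Icc 1 t, (A ^ s) i j) *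
              dist (x i) (x j) ^ 2 := by
  by_cases hv : v = 0
  · have hxq : ∀ i, x i = q := by
      intro i
      rw [hx i, hv, smul_zero, add_zero]
    refine ⟨x, ?_⟩
    simp [hxq]
  · have hv0 : 0 < ‖v‖ := norm_pos_iff.mpr hv
    have hn1 : ‖(‖v‖⁻¹) • v‖ = 1 := by
      rw [norm_smul, norm_inv, norm_norm, inv_mul_cancel₀ hv0.ne']
    obtain ⟨lo, hi, γ, hγ, hxγ⟩ := exists_geodesic_line ((‖v‖⁻¹) • v) hn1 x q v c hx
    exact geodesic_cotype t ht p A hp hA hrow hrev x lo hi γ hγ hxγ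

end Vale.Agent.Helper22.GeoFinal
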