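import Vale.Agent.Helper22.GeoChain

/-!
P138: the metric Markov cotype two inequality on the real line with the sharp constant, for all
reversible chains; maximum principle for the resolvent; configurations on a geodesic segment of a
metric space.
-/

namespace Vale.Agent.Helper22.GeoLine

open Finset Matrix
open Vale.Agent.Helper22.TwoState Vale.Agent.Helper22.GeoChain

variable {n : ℕ}

lemma dirichlet (p : Fin n → ℝ) (P : Matrix (Fin n) (Fin n) ℝ) (hrowP : ∀ i, ∑ j, P i j = 1)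
    (hstat : ∀ j, ∑ i, p i * P i j = p j) (s : Fin n → ℝ) :
    ∑ i, ∑ j, p i * P i j * (s i - s j) ^ 2
      = 2 * ∑ i, p i * (s i * s i) - 2 * ∑ i, p i * (s i * (P *ᵥ s) i) := by
  have h1 : ∑ i, ∑ j, p i * P i j * (s i * s i) = ∑ i, p i * (s i * s i) := by
    apply Finset.sum_congr rfl
    intro i _
    rw [← Finset.sum_mul, ← Finset.mul_sum, hrowP, mul_one]
  have h2 : ∑ i, ∑ j, p i * P i j * (s j * s j) = ∑ j, p j * (s j * s j) := by
    rw [Finset.sum_comm]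
    apply Finset.sum_congr rfl
    intro j _
    rw [← Finset.sum_mul, hstat]
  have h3 : ∑ i, ∑ j, p i * P i j * (s i * s j) = ∑ i, p i * (s i * (P *ᵥ s) i) := by
    apply Finset.sum_congr rfl
    intro i _
    simp only [mulVec, dotProduct]
    rw [Finset.mul_sum, Finset.mul_sum]
    apply Finset.sum_congr rfl
    intro j _
    ring
  have hexp : ∀ i j, p i * P i j * (s i - s j) ^ 2
      = p i * P i j * (s i * s i) + p i * P i j * (s j * s j)
        - 2 * (p i * P i j * (s i * s j)) := by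
    intro i j; ring
  simp_rw [hexp, Finset.sum_sub_distrib, Finset.sum_add_distrib, ← Finset.mul_sum, h1, h2, h3]
  ring

lemma stat_of_rev (p : Fin n → ℝ) (A : Matrix (Fin n) (Fin n) ℝ) (hrow : ∀ i, ∑ j, A i j = 1)
    (hrev : ∀ i j, p i * A i j = p j * A j i) (j : Fin n) : ∑ i, p i * A i j = p j := by
  have h : ∀ i, p i * A i j = p j * A j i := fun i => hrev i j
  simp_rw [h, ← Finset.mul_sum, hrow, mul_one]

lemma pow_row (A : Matrix (Fin n) (Fin n) ℝ) (hrow : ∀ i, ∑ j, A i j = 1) :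
    ∀ (r : ℕ) (i : Fin n), ∑ j, (A ^ r) i j = 1 := by
  intro r
  induction r with
  | zero => intro i; simp [Matrix.one_apply]
  | succ r ih =>
    intro i
    simp only [pow_succ, Matrix.mul_apply]
    rw [Finset.sum_comm]
    have h : ∀ k, ∑ j, (A ^ r) i k * A k j = (A ^ r) i k := by
      intro k; rw [← Finset.mul_sum, hrow, mul_one]
    simp_rw [h]
    exact ih i

lemma pow_stat (p : Fin n → ℝ) (A : Matrix (Fin n) (Fin n) ℝ)
    (hstat : ∀ j, ∑ i, p i * A i j = p j) :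
    ∀ (r : ℕ) (j : Fin n), ∑ i, p i * (A ^ r) i j = p j := by
  intro r
  induction r with
  | zero => intro j; simp [Matrix.one_apply]
  | succ r ih =>
    intro j
    simp only [pow_succ, Matrix.mul_apply]
    have h : ∀ i, p i * ∑ k, (A ^ r) i k * A k j = ∑ k, p i * (A ^ r) i k * A k j := by
      intro i; rw [Finset.mul_sum]; apply Finset.sum_congr rfl; intro k _; ring
    simp_rw [h]
    rw [Finset.sum_comm]
    have h2 : ∀ k, ∑ i, p i * (A ^ r) i k * A k j = p k * A k j := by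
      intro k; rw [← Finset.sum_mul, ih]
    simp_rw [h2]
    exact hstat j

/-- The inequality on the real line, for the resolvent point `u` of `s`. -/
lemma line_ineq (p : Fin n → ℝ) (A : Matrix (Fin n) (Fin n) ℝ) (hp : ∀ i, 0 ≤ p i)
    (hA : ∀ i j, 0 ≤ A i j) (hrow : ∀ i, ∑ j, A i j = 1)
    (hrev : ∀ i j, p i * A i j = p j * A j i) (t : ℕ) (ht : 1 ≤ t) (u s : Fin n → ℝ)
    (hs : ∀ i, s i = (1 + 2 * (t : ℝ)) * u i - 2 * (t : ℝ) * (A *ᵥ u) i) :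
    ∑ i, p i * (s i - u i) ^ 2 + (t : ℝ) * ∑ i, ∑ j, p i * A i j * (u i - u j) ^ 2
      ≤ 2 * ∑ i, ∑ j,
          p i * ((1 / (t : ℝ)) * ∑ r ∈ Finset.Icc 1 t, (A ^ r) i j) * (s i - s j) ^ 2 := by
  have ht0 : (0:ℝ) < t := by exact_mod_cast ht
  obtain ⟨w, l, hw, hl, hmom⟩ := moments_chain p A hp hA hrow hrev u
  have hstat := stat_of_rev p A hrow hrev
  have m00 : ∑ i, p i * (u i * u i) = ∑ j, w j := by
    have h := hmom 0 0
    simpa using h
  have m01 : ∑ i, p i * (u i * (A *ᵥ u) i) = ∑ j, w j * l j := by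
    have h := hmom 0 1
    simpa using h
  have m11 : ∑ i, p i * ((A *ᵥ u) i * (A *ᵥ u) i) = ∑ j, w j * l j ^ 2 := by
    have h := hmom 1 1
    simpa using h
  have hI : ∑ i, p i * (s i - u i) ^ 2 = ∑ j, w j * (4 * (t:ℝ) ^ 2 * (1 - l j) ^ 2) := by
    have e : ∀ i, p i * (s i - u i) ^ 2
        = 4 * (t:ℝ) ^ 2 * (p i * (u i * u i)) - 8 * (t:ℝ) ^ 2 * (p i * (u i * (A *ᵥ u) i))
          + 4 * (t:ℝ) ^ 2 * (p i * ((A *ᵥ u) i * (A *ᵥ u) i)) := by
      intro i; rw [hs i]; ring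
    simp_rw [e, Finset.sum_add_distrib, Finset.sum_sub_distrib, ← Finset.mul_sum, m00, m01, m11]
    rw [Finset.mul_sum, Finset.mul_sum, Finset.mul_sum, ← Finset.sum_sub_distrib,
      ← Finset.sum_add_distrib]
    apply Finset.sum_congr rfl
    intro j _; ring
  have hII : ∑ i, ∑ j, p i * A i j * (u i - u j) ^ 2 = ∑ j, w j * (2 * (1 - l j)) := by
    rw [dirichlet p A hrow hstat u, m00, m01, Finset.mul_sum, Finset.mul_sum,
      ← Finset.sum_sub_distrib]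
    apply Finset.sum_congr rfl
    intro j _; ring
  have hsv : s = (1 + 2 * (t:ℝ)) • u - (2 * (t:ℝ)) • (A *ᵥ u) := by
    funext i
    simp only [Pi.sub_apply, Pi.smul_apply, smul_eq_mul]
    exact hs i
  have hS : ∀ r : ℕ, ∑ i, p i * (s i * (A ^ r *ᵥ s) i)
      = ∑ j, w j * (l j ^ r * (1 + 2 * (t:ℝ) * (1 - l j)) ^ 2) := by
    intro r
    have hAr : A ^ r *ᵥ s
        = (1 + 2 * (t:ℝ)) • (A ^ r *ᵥ u) - (2 * (t:ℝ)) • (A ^ (r + 1) *ᵥ u) := by
      rw [hsv, Matrix.mulVec_sub, Matrix.mulVec_smul, Matrix.mulVec_smul, Matrix.mulVec_mulVec,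
        ← pow_succ]
    have e : ∀ i, p i * (s i * (A ^ r *ᵥ s) i) =
        (1 + 2 * (t:ℝ)) ^ 2 * (p i * ((A ^ 0 *ᵥ u) i * (A ^ r *ᵥ u) i))
        - 2 * (t:ℝ) * (1 + 2 * (t:ℝ)) * (p i * ((A ^ 0 *ᵥ u) i * (A ^ (r + 1) *ᵥ u) i))
        - 2 * (t:ℝ) * (1 + 2 * (t:ℝ)) * (p i * ((A ^ 1 *ᵥ u) i * (A ^ r *ᵥ u) i))
        + 4 * (t:ℝ) ^ 2 * (p i * ((A ^ 1 *ᵥ u) i * (A ^ (r + 1) *ᵥ u) i)) := by
      intro i
      rw [hAr, hs i]
      simp only [pow_zero, pow_one, Matrix.one_mulVec, Pi.sub_apply, Pi.smul_apply, smul_eq_mul]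
      ring
    simp_rw [e, Finset.sum_add_distrib, Finset.sum_sub_distrib, ← Finset.mul_sum, hmom]
    rw [Finset.mul_sum, Finset.mul_sum, Finset.mul_sum, Finset.mul_sum, ← Finset.sum_sub_distrib,
      ← Finset.sum_sub_distrib, ← Finset.sum_add_distrib]
    apply Finset.sum_congr rfl
    intro j _
    ring
  have hIII : ∑ i, ∑ j,
        p i * ((1 / (t : ℝ)) * ∑ r ∈ Finset.Icc 1 t, (A ^ r) i j) * (s i - s j) ^ 2
      = (1 / (t:ℝ)) * ∑ r ∈ Finset.Icc 1 t, ∑ i, ∑ j, p i * (A ^ r) i j * (s i - s j) ^ 2 := by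
    have e : ∀ i j, p i * ((1 / (t : ℝ)) * ∑ r ∈ Finset.Icc 1 t, (A ^ r) i j) * (s i - s j) ^ 2
        = ∑ r ∈ Finset.Icc 1 t, (1 / (t:ℝ)) * (p i * (A ^ r) i j * (s i - s j) ^ 2) := by
      intro i j
      rw [Finset.mul_sum, Finset.mul_sum, Finset.sum_mul]
      apply Finset.sum_congr rfl
      intro r _; ring
    simp_rw [e]
    have e2 : ∀ i, ∑ j, ∑ r ∈ Finset.Icc 1 t, (1 / (t:ℝ)) * (p i * (A ^ r) i j * (s i - s j) ^ 2)
        = ∑ r ∈ Finset.Icc 1 t, ∑ j, (1 / (t:ℝ)) * (p i * (A ^ r) i j * (s i - s j) ^ 2) :=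
      fun i => Finset.sum_comm
    simp_rw [e2]
    rw [Finset.sum_comm, Finset.mul_sum]
    apply Finset.sum_congr rfl
    intro r _
    rw [Finset.mul_sum]
    apply Finset.sum_congr rfl
    intro i _
    rw [Finset.mul_sum]
  have hIV : ∀ r : ℕ, ∑ i, ∑ j, p i * (A ^ r) i j * (s i - s j) ^ 2
      = ∑ j, w j * ((1 + 2 * (t:ℝ) * (1 - l j)) ^ 2 * (2 - 2 * l j ^ r)) := by
    intro r
    rw [dirichlet p (A ^ r) (pow_row A hrow r) (pow_stat p A hstat r) s]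
    have h0 := hS 0
    simp only [pow_zero, Matrix.one_mulVec] at h0
    rw [h0, hS r, Finset.mul_sum, Finset.mul_sum, ← Finset.sum_sub_distrib]
    apply Finset.sum_congr rfl
    intro j _; ring
  rw [hI, hII, hIII]
  simp_rw [hIV]
  rw [Finset.sum_comm, Finset.mul_sum, ← Finset.sum_add_distrib, Finset.mul_sum, Finset.mul_sum]
  apply Finset.sum_le_sum
  intro j _
  obtain ⟨μ, hμ⟩ : ∃ μ : ℝ, μ = 1 - l j := ⟨_, rfl⟩
  have hlj : l j = 1 - μ := by rw [hμ]; ring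
  have hμ0 : 0 ≤ μ := by rw [hμ]; linarith [(hl j).2]
  have hμ2 : μ ≤ 2 := by rw [hμ]; linarith [(hl j).1]
  have hGe : ∑ r ∈ Finset.Icc 1 t, w j * ((1 + 2 * (t:ℝ) * (1 - l j)) ^ 2 * (2 - 2 * l j ^ r))
      = 2 * w j * (1 + 2 * (t:ℝ) * μ) ^ 2 * ∑ r ∈ Finset.Icc 1 t, (1 - (1 - μ) ^ r) := by
    rw [Finset.mul_sum]
    apply Finset.sum_congr rfl
    intro r _
    rw [hlj]; ring
  rw [hGe, ← hμ]
  have hβ : (0:ℝ) < 1 + 2 * (t:ℝ) * μ := by positivity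
  have hG2 : (t:ℝ) ^ 2 * μ ≤ 2 * (1 + 2 * (t:ℝ) * μ) * ∑ r ∈ Finset.Icc 1 t, (1 - (1 - μ) ^ r) := by
    rcases hμ0.eq_or_lt with h0 | h0
    · rw [← h0]; simp
    · have h := G_lower μ h0 hμ2 t ht
      rw [div_le_iff₀ (by positivity)] at h
      linarith
  have hk : 0 ≤ 2 * w j * (1 + 2 * (t:ℝ) * μ) / t := by
    have := hw j
    positivity
  have h := mul_le_mul_of_nonneg_left hG2 hk
  have eL : w j * (4 * (t:ℝ) ^ 2 * μ ^ 2) + (t:ℝ) * (w j * (2 * μ))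
      = 2 * w j * (1 + 2 * (t:ℝ) * μ) / t * ((t:ℝ) ^ 2 * μ) := by
    field_simp
    ring
  have eR : 2 * (1 / (t:ℝ) * (2 * w j * (1 + 2 * (t:ℝ) * μ) ^ 2
        * ∑ r ∈ Finset.Icc 1 t, (1 - (1 - μ) ^ r)))
      = 2 * w j * (1 + 2 * (t:ℝ) * μ) / t
        * (2 * (1 + 2 * (t:ℝ) * μ) * ∑ r ∈ Finset.Icc 1 t, (1 - (1 - μ) ^ r)) := by
    field_simp
  rw [eL, eR]
  exact h

/-- Maximum principle for the resolvent. -/
lemma max_principle (A : Matrix (Fin n) (Fin n) ℝ) (hA : ∀ i j, 0 ≤ A i j)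
    (hrow : ∀ i, ∑ j, A i j = 1) (t : ℕ) (u s : Fin n → ℝ)
    (hs : ∀ i, s i = (1 + 2 * (t : ℝ)) * u i - 2 * (t : ℝ) * (A *ᵥ u) i) (lo hi : ℝ)
    (hlo : ∀ i, lo ≤ s i) (hhi : ∀ i, s i ≤ hi) : ∀ i, lo ≤ u i ∧ u i ≤ hi := by
  intro i
  have ht0 : (0:ℝ) ≤ t := Nat.cast_nonneg t
  constructor
  · obtain ⟨k, -, hk⟩ := Finset.exists_min_image Finset.univ u ⟨i, Finset.mem_univ i⟩
    have h1 : u k ≤ (A *ᵥ u) k := by
      simp only [mulVec, dotProduct]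
      calc u k = ∑ j, A k j * u k := by rw [← Finset.sum_mul, hrow, one_mul]
        _ ≤ ∑ j, A k j * u j :=
          Finset.sum_le_sum fun j _ => mul_le_mul_of_nonneg_left (hk j (Finset.mem_univ j)) (hA k j)
    have h2 := hs k
    have h3 := hlo k
    have h4 := hk i (Finset.mem_univ i)
    nlinarith
  · obtain ⟨k, -, hk⟩ := Finset.exists_max_image Finset.univ u ⟨i, Finset.mem_univ i⟩
    have h1 : (A *ᵥ u) k ≤ u k := by
      simp only [mulVec, dotProduct]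
      calc ∑ j, A k j * u j ≤ ∑ j, A k j * u k :=
          Finset.sum_le_sum fun j _ => mul_le_mul_of_nonneg_left (hk j (Finset.mem_univ j)) (hA k j)
        _ = u k := by rw [← Finset.sum_mul, hrow, one_mul]
    have h2 := hs k
    have h3 := hhi k
    have h4 := hk i (Finset.mem_univ i)
    nlinarith

/-- Existence of the resolvent point. -/
lemma exists_u (A : Matrix (Fin n) (Fin n) ℝ) (hA : ∀ i j, 0 ≤ A i j)
    (hrow : ∀ i, ∑ j, A i j = 1) (t : ℕ) (s : Fin n → ℝ) :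
    ∃ u : Fin n → ℝ, ∀ i, s i = (1 + 2 * (t : ℝ)) * u i - 2 * (t : ℝ) * (A *ᵥ u) i := by
  obtain ⟨Φ, hΦ⟩ : ∃ Φ : (Fin n → ℝ) →ₗ[ℝ] (Fin n → ℝ),
      Φ = (1 + 2 * (t : ℝ)) • LinearMap.id - (2 * (t : ℝ)) • A.mulVecLin := ⟨_, rfl⟩
  have hΦu : ∀ (u : Fin n → ℝ) (i : Fin n),
      Φ u i = (1 + 2 * (t : ℝ)) * u i - 2 * (t : ℝ) * (A *ᵥ u) i := by
    intro u i
    rw [hΦ]
    simp
  have hinj : Function.Injective Φ := by
    rw [injective_iff_map_eq_zero]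
    intro u hu
    have h0 : ∀ i, (0:ℝ) = (1 + 2 * (t : ℝ)) * u i - 2 * (t : ℝ) * (A *ᵥ u) i := by
      intro i
      rw [← hΦu u i, hu]
      rfl
    have h := max_principle A hA hrow t u (fun _ => 0) h0 0 0 (fun _ => le_refl _)
      (fun _ => le_refl _)
    funext i
    exact le_antisymm (h i).2 (h i).1
  have hsurj : Function.Surjective Φ := LinearMap.injective_iff_surjective.mp hinj
  obtain ⟨u, hu⟩ := hsurj s
  exact ⟨u, fun i => by rw [← hΦu u i, hu]⟩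

/-- Metric Markov cotype two with the sharp constant for configurations on a geodesic segment. -/
theorem geodesic_cotype {X : Type*} [PseudoMetricSpace X] (t : ℕ) (ht : 1 ≤ t)
    (p : Fin n → ℝ) (A : Matrix (Fin n) (Fin n) ℝ) (hp : ∀ i, 0 ≤ p i)
    (hA : ∀ i j, 0 ≤ A i j) (hrow : ∀ i, ∑ j, A i j = 1)
    (hrev : ∀ i j, p i * A i j = p j * A j i) (x : Fin n → X) (lo hi : ℝ) (γ : ℝ → X)
    (hγ : ∀ a ∈ Set.Icc lo hi, ∀ b ∈ Set.Icc lo hi, dist (γ a) (γ b) = |a - b|)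
    (hx : ∀ i, ∃ a ∈ Set.Icc lo hi, x i = γ a) :
    ∃ y : Fin n → X,
      ∑ i, p i * dist (x i) (y i) ^ 2
          + (t : ℝ) * ∑ i, ∑ j, p i * A i j * dist (y i) (y j) ^ 2
        ≤ 2 * ∑ i, ∑ j,
            p i * ((1 / (t : ℝ)) * ∑ s ∈ Finset.Icc 1 t, (A ^ s) i j) *
              dist (x i) (x j) ^ 2 := by
  choose s hsI hxs using hx
  obtain ⟨u, hu⟩ := exists_u A hA hrow t s
  have huI : ∀ i, u i ∈ Set.Icc lo hi := by
    intro i
    have h := max_principle A hA hrow t u s hu lo hi (fun i => (hsI i).1) (fun i => (hsI i).2) i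
    exact ⟨h.1, h.2⟩
  refine ⟨fun i => γ (u i), ?_⟩
  have h := line_ineq p A hp hA hrow hrev t ht u s hu
  have e1 : ∀ i, dist (x i) (γ (u i)) ^ 2 = (s i - u i) ^ 2 := by
    intro i
    rw [hxs i, hγ _ (hsI i) _ (huI i), sq_abs]
  have e2 : ∀ i j, dist (γ (u i)) (γ (u j)) ^ 2 = (u i - u j) ^ 2 := by
    intro i j
    rw [hγ _ (huI i) _ (huI j), sq_abs]
  have e3 : ∀ i j, dist (x i) (x j) ^ 2 = (s i - s j) ^ 2 := by
    intro i j
    rw [hxs i, hxs j, hγ _ (hsI i) _ (hsI j), sq_abs]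
  simp_rw [e1, e2, e3]
  exact h

end Vale.Agent.Helper22.GeoLine
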