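import Vale.Agent.Helper22.TwoState

/-!
P138: spectral moments of a real symmetric matrix whose quadratic form is bounded by the identity,
and of a reversible stochastic matrix in the weighted inner product.
-/

namespace Vale.Agent.Helper22.GeoSpec

open Finset Matrix

variable {n : ℕ}

/-- Spectral moments of a symmetric matrix with `|<g, M g>| ≤ <g, g>`. -/
lemma moments_symm (M : Matrix (Fin n) (Fin n) ℝ) (hM : M.IsHermitian)
    (hbd : ∀ g : Fin n → ℝ, |g ⬝ᵥ (M *ᵥ g)| ≤ g ⬝ᵥ g) (g : Fin n → ℝ) :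
    ∃ (w l : Fin n → ℝ), (∀ j, 0 ≤ w j) ∧ (∀ j, -1 ≤ l j ∧ l j ≤ 1) ∧
      ∀ a b : ℕ, (M ^ a *ᵥ g) ⬝ᵥ (M ^ b *ᵥ g) = ∑ j, w j * l j ^ (a + b) := by
  obtain ⟨U, hU⟩ : ∃ U : Matrix (Fin n) (Fin n) ℝ, U = (hM.eigenvectorUnitary : Matrix _ _ ℝ) :=
    ⟨_, rfl⟩
  obtain ⟨l, hl⟩ : ∃ l : Fin n → ℝ, l = hM.eigenvalues := ⟨_, rfl⟩
  have hUU : star U * U = 1 := by
    rw [hU]; exact Unitary.coe_star_mul_self hM.eigenvectorUnitary
  have hUU' : U * star U = 1 := by
    rw [hU]; exact Unitary.coe_mul_star_self hM.eigenvectorUnitary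
  have hst : star U = Uᵀ := by
    rw [Matrix.star_eq_conjTranspose, Matrix.conjTranspose_eq_transpose_of_trivial]
  rw [hst] at hUU hUU'
  have hspec : M = U * diagonal l * Uᵀ := by
    have h := hM.spectral_theorem
    rw [Unitary.conjStarAlgAut_apply] at h
    rw [← hst, hU, hl]
    simpa using h
  have hpow : ∀ a : ℕ, M ^ a = U * diagonal (fun j => l j ^ a) * Uᵀ := by
    intro a
    induction a with
    | zero =>
      have : diagonal (fun j : Fin n => l j ^ 0) = (1 : Matrix (Fin n) (Fin n) ℝ) := by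
        simp
      rw [pow_zero, this, Matrix.mul_one, hUU']
    | succ a ih =>
      rw [pow_succ, ih]
      nth_rewrite 1 [hspec]
      calc U * diagonal (fun j => l j ^ a) * Uᵀ * (U * diagonal l * Uᵀ)
          = U * diagonal (fun j => l j ^ a) * (Uᵀ * U) * diagonal l * Uᵀ := by
            simp only [Matrix.mul_assoc]
        _ = U * (diagonal (fun j => l j ^ a) * diagonal l) * Uᵀ := by
            rw [hUU, Matrix.mul_one, Matrix.mul_assoc U]
        _ = U * diagonal (fun j => l j ^ (a + 1)) * Uᵀ := by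
            rw [Matrix.diagonal_mul_diagonal]
            congr 3
  have hiso : ∀ p q : Fin n → ℝ, (U *ᵥ p) ⬝ᵥ (U *ᵥ q) = p ⬝ᵥ q := by
    intro p q
    rw [Matrix.dotProduct_mulVec, ← Matrix.mulVec_transpose, Matrix.mulVec_mulVec, hUU,
      Matrix.one_mulVec]
  have key : ∀ (g : Fin n → ℝ) (a b : ℕ),
      (M ^ a *ᵥ g) ⬝ᵥ (M ^ b *ᵥ g) = ∑ j, (Uᵀ *ᵥ g) j ^ 2 * l j ^ (a + b) := by
    intro g a b
    rw [hpow a, hpow b]
    rw [← Matrix.mulVec_mulVec, ← Matrix.mulVec_mulVec, ← Matrix.mulVec_mulVec,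
      ← Matrix.mulVec_mulVec, hiso]
    simp only [dotProduct, Matrix.mulVec_diagonal]
    apply Finset.sum_congr rfl
    intro j _
    rw [pow_add]
    ring
  refine ⟨fun j => (Uᵀ *ᵥ g) j ^ 2, l, fun j => sq_nonneg _, ?_, key g⟩
  intro j
  have h0 := key (U *ᵥ Pi.single j 1) 0 0
  have h1 := key (U *ᵥ Pi.single j 1) 0 1
  have hc : Uᵀ *ᵥ (U *ᵥ Pi.single j (1:ℝ)) = Pi.single j 1 := by
    rw [Matrix.mulVec_mulVec, hUU, Matrix.one_mulVec]
  rw [hc] at h0 h1
  have e0 : ∑ k, (Pi.single j (1:ℝ) : Fin n → ℝ) k ^ 2 * l k ^ (0 + 0) = 1 := by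
    rw [Finset.sum_eq_single j]
    · simp
    · intro k _ hk
      simp [hk]
    · intro h; exact absurd (Finset.mem_univ j) h
  have e1 : ∑ k, (Pi.single j (1:ℝ) : Fin n → ℝ) k ^ 2 * l k ^ (0 + 1) = l j := by
    rw [Finset.sum_eq_single j]
    · simp
    · intro k _ hk
      simp [hk]
    · intro h; exact absurd (Finset.mem_univ j) h
  rw [e0] at h0
  rw [e1] at h1
  have hb := hbd (U *ᵥ Pi.single j 1)
  simp only [pow_zero, pow_one, Matrix.one_mulVec] at h0 h1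
  rw [h0, h1] at hb
  exact abs_le.mp hb

end Vale.Agent.Helper22.GeoSpec
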