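import Mathlib

/-!
Definitions for P254 (isotropic constant): volume, first and second moments, covariance matrix
and the ratio `det (Cov K) / vol(K)^2` (which equals `L_K ^ (2 n)` in dimension `n`) of a set
`K` in `ι → ℝ`, pyramids and the standard corner simplex.
-/

namespace Vale.Agent.Helper22

open MeasureTheory

noncomputable section

variable {ι : Type*} [Fintype ι]

/-- Lebesgue volume of `K ⊆ ι → ℝ` as a real number. -/
def vol (K : Set (ι → ℝ)) : ℝ := (volume K).toReal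

/-- First moment `∫_K x_i dx`. -/
def mom1 (K : Set (ι → ℝ)) (i : ι) : ℝ := ∫ x in K, x i

/-- Second moment `∫_K x_i x_j dx`. -/
def mom2 (K : Set (ι → ℝ)) (i j : ι) : ℝ := ∫ x in K, x i * x j

/-- Centroid `b_K = |K|⁻¹ ∫_K x dx`. -/
def centroid (K : Set (ι → ℝ)) (i : ι) : ℝ := mom1 K i / vol K

/-- Covariance matrix `Σ_K = |K|⁻¹ ∫_K (x - b_K)(x - b_K)ᵀ dx`, written as
`|K|⁻¹ ∫_K x xᵀ dx - b_K b_Kᵀ`. -/
def cov (K : Set (ι → ℝ)) : Matrix ι ι ℝ := fun i j =>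
  mom2 K i j / vol K - centroid K i * centroid K j

/-- `det Σ_K / |K|^2`; for a convex body `K` in dimension `n` this is `L_K ^ (2 n)`. -/
def isoRatio [DecidableEq ι] (K : Set (ι → ℝ)) : ℝ := (cov K).det / (vol K) ^ 2

/-- The pyramid with base `M × {0}` and apex `(0, 1)`, as a subset of `(ι ⊕ Unit) → ℝ`:
the points `((1 - t) y, t)` with `y ∈ M` and `0 ≤ t ≤ 1`. -/
def pyr (M : Set (ι → ℝ)) : Set (ι ⊕ Unit → ℝ) :=
  {z | 0 ≤ z (Sum.inr ()) ∧ z (Sum.inr ()) ≤ 1 ∧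
    ∃ y ∈ M, ∀ i, z (Sum.inl i) = (1 - z (Sum.inr ())) * y i}

/-- The standard corner simplex `{y : y_i ≥ 0, ∑ y_i ≤ 1}` in `ι → ℝ`. -/
def stdSimp (ι : Type*) [Fintype ι] : Set (ι → ℝ) := {y | (∀ i, 0 ≤ y i) ∧ ∑ i, y i ≤ 1}

end

end Vale.Agent.Helper22
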