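import Vale.Agent.Helper22.IsoDefs

/-!
Moments of a pyramid over a bounded measurable base, and the resulting formula for
`det (Cov) / vol^2`.
-/

namespace Vale.Agent.Helper22

open MeasureTheory Set

noncomputable section

variable {ι : Type*} [Fintype ι]

lemma integral_sum_pi (G : (ι ⊕ Unit → ℝ) → ℝ) (hG : Integrable G) :
    ∫ z, G z = ∫ t : ℝ, ∫ x : ι → ℝ, G (Sum.elim x (fun _ => t)) := by
  have he := volume_measurePreserving_sumPiEquivProdPi_symm (fun _ : ι ⊕ Unit => ℝ)
  have h1 : ∫ z, G z = ∫ p : (ι → ℝ) × (Unit → ℝ),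
      G ((MeasurableEquiv.sumPiEquivProdPi (fun _ : ι ⊕ Unit => ℝ)).symm p) :=
    (he.integral_comp' G).symm
  have hint : Integrable (fun p : (ι → ℝ) × (Unit → ℝ) =>
      G ((MeasurableEquiv.sumPiEquivProdPi (fun _ : ι ⊕ Unit => ℝ)).symm p))
      ((volume : Measure (ι → ℝ)).prod (volume : Measure (Unit → ℝ))) :=
    (he.integrable_comp_emb (MeasurableEquiv.measurableEmbedding _)).2 hG
  have h2 := integral_prod_symm _ hint
  have hu := (volume_preserving_funUnique Unit ℝ).symm
  have h3 := hu.integral_comp' (fun u : Unit → ℝ => ∫ x : ι → ℝ,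
      G ((MeasurableEquiv.sumPiEquivProdPi (fun _ : ι ⊕ Unit => ℝ)).symm (x, u)))
  refine h1.trans (h2.trans (h3.symm.trans ?_))
  refine integral_congr_ae (Filter.Eventually.of_forall fun t => ?_)
  refine integral_congr_ae (Filter.Eventually.of_forall fun x => ?_)
  show G _ = G _
  congr 1

/-- The pyramid without its apex layer `t = 1`. -/
def pyr0 (M : Set (ι → ℝ)) : Set (ι ⊕ Unit → ℝ) :=
  {z | 0 ≤ z (Sum.inr ()) ∧ z (Sum.inr ()) < 1 ∧
    (fun i => z (Sum.inl i) / (1 - z (Sum.inr ()))) ∈ M}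

lemma pyr_ae_eq (M : Set (ι → ℝ)) : pyr M =ᵐ[volume] pyr0 M := by
  have hnull : (volume : Measure (ι ⊕ Unit → ℝ)) {z | z (Sum.inr ()) = 1} = 0 :=
    Measure.pi_hyperplane (fun _ => volume) (Sum.inr ()) 1
  have hcompl : ∀ᵐ z ∂(volume : Measure (ι ⊕ Unit → ℝ)), z (Sum.inr ()) ≠ 1 := by
    rw [ae_iff]
    simpa using hnull
  filter_upwards [hcompl] with z hz
  apply propext
  constructor
  · rintro ⟨h0, h1, y, hy, hxy⟩
    have hlt : z (Sum.inr ()) < 1 := lt_of_le_of_ne h1 hz
    refine ⟨h0, hlt, ?_⟩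
    have : (fun i => z (Sum.inl i) / (1 - z (Sum.inr ()))) = y := by
      funext i
      rw [hxy i]
      field_simp [sub_ne_zero.mpr (ne_of_gt hlt)]
    rw [this]; exact hy
  · rintro ⟨h0, h1, hm⟩
    refine ⟨h0, h1.le, _, hm, fun i => ?_⟩
    have : (1 - z (Sum.inr ())) ≠ 0 := sub_ne_zero.mpr (ne_of_gt h1)
    field_simp

omit [Fintype ι] in
lemma measurableSet_pyr0 {M : Set (ι → ℝ)} (hM : MeasurableSet M) : MeasurableSet (pyr0 M) := by
  have h1 : MeasurableSet {z : ι ⊕ Unit → ℝ | 0 ≤ z (Sum.inr ())} :=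
    measurableSet_le measurable_const (measurable_pi_apply _)
  have h2 : MeasurableSet {z : ι ⊕ Unit → ℝ | z (Sum.inr ()) < 1} :=
    measurableSet_lt (measurable_pi_apply _) measurable_const
  have h3 : Measurable
      (fun z : ι ⊕ Unit → ℝ => (fun i => z (Sum.inl i) / (1 - z (Sum.inr ())))) := by
    refine measurable_pi_lambda _ fun i => ?_
    exact (measurable_pi_apply _).div (measurable_const.sub (measurable_pi_apply _))
  exact h1.inter (h2.inter (h3 hM))

lemma isBounded_pyr0 {M : Set (ι → ℝ)} (hb : Bornology.IsBounded M) :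
    Bornology.IsBounded (pyr0 M) := by
  obtain ⟨R, hR⟩ := hb.exists_norm_le
  rw [isBounded_iff_forall_norm_le]
  refine ⟨max R 1, fun z hz => ?_⟩
  obtain ⟨h0, h1, hm⟩ := hz
  have hRy := hR _ hm
  have hR0 : 0 ≤ R := le_trans (norm_nonneg _) hRy
  rw [pi_norm_le_iff_of_nonneg (le_trans hR0 (le_max_left _ _))]
  have hs : 0 < 1 - z (Sum.inr ()) := by linarith
  intro i
  cases i with
  | inl i =>
    have h2 := (pi_norm_le_iff_of_nonneg hR0).1 hRy i
    simp only [Real.norm_eq_abs] at h2 ⊢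
    rw [abs_div, abs_of_pos hs, div_le_iff₀ hs] at h2
    refine le_trans h2 (le_trans ?_ (le_max_left _ _))
    nlinarith
  | inr u =>
    simp only [Real.norm_eq_abs]
    rw [abs_of_nonneg h0]
    exact le_trans h1.le (le_max_right _ _)

/-- Integral over the pyramid of a product of a `k`-homogeneous continuous function of the
base variable and a continuous function of the height. -/
lemma integral_pyr {M : Set (ι → ℝ)} (hM : MeasurableSet M) (hb : Bornology.IsBounded M)
    (f : (ι → ℝ) → ℝ) (hf : Continuous f) (k : ℕ)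
    (hk : ∀ (c : ℝ) (y : ι → ℝ), f (c • y) = c ^ k * f y) (h : ℝ → ℝ) (hh : Continuous h) :
    ∫ z in pyr M, f (fun i => z (Sum.inl i)) * h (z (Sum.inr ())) =
      (∫ y in M, f y) * ∫ t in (0:ℝ)..1, h t * (1 - t) ^ (Fintype.card ι + k) := by
  rw [setIntegral_congr_set (pyr_ae_eq M)]
  set F : (ι ⊕ Unit → ℝ) → ℝ := fun z => f (fun i => z (Sum.inl i)) * h (z (Sum.inr ())) with hF
  have hFc : Continuous F := by
    refine (hf.comp ?_).mul (hh.comp (continuous_apply _))
    exact continuous_pi fun i => continuous_apply _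
  have hmeas := measurableSet_pyr0 hM
  have hint : IntegrableOn F (pyr0 M) := by
    obtain ⟨R, hR⟩ := (isBounded_pyr0 hb).subset_closedBall (0 : ι ⊕ Unit → ℝ)
    exact (hFc.continuousOn.integrableOn_compact (isCompact_closedBall _ _)).mono_set hR
  rw [← integral_indicator hmeas]
  rw [integral_sum_pi _ (hint.integrable_indicator hmeas)]
  have hinner : ∀ t : ℝ, ∫ x : ι → ℝ, (pyr0 M).indicator F (Sum.elim x (fun _ => t)) =
      (Ico (0:ℝ) 1).indicator
        (fun t => (h t * (1 - t) ^ (Fintype.card ι + k)) * ∫ y in M, f y) t := by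
    intro t
    by_cases ht : t ∈ Ico (0:ℝ) 1
    · rw [indicator_of_mem ht]
      obtain ⟨ht0, ht1⟩ := ht
      have hs : 0 < 1 - t := by linarith
      set ψ : (ι → ℝ) → ℝ := M.indicator (fun y => f ((1 - t) • y) * h t) with hψ
      have hcong : ∀ x : ι → ℝ, (pyr0 M).indicator F (Sum.elim x (fun _ => t)) =
          ψ ((1 - t)⁻¹ • x) := by
        intro x
        have hfun : (fun i => x i / (1 - t)) = (1 - t)⁻¹ • x := by
          funext i
          simp [div_eq_inv_mul]
        by_cases hx : (1 - t)⁻¹ • x ∈ M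
        · have hz : Sum.elim x (fun _ => t) ∈ pyr0 M := by
            refine ⟨ht0, ht1, ?_⟩
            show (fun i => x i / (1 - t)) ∈ M
            rw [hfun]; exact hx
          rw [indicator_of_mem hz, hψ, indicator_of_mem hx]
          show f (fun i => x i) * h t = _
          rw [smul_smul, mul_inv_cancel₀ hs.ne', one_smul]
        · have hz : Sum.elim x (fun _ => t) ∉ pyr0 M := by
            rintro ⟨-, -, hm⟩
            apply hx
            rw [← hfun]; exact hm
          rw [indicator_of_notMem hz, hψ, indicator_of_notMem hx]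
      rw [integral_congr_ae (Filter.Eventually.of_forall hcong)]
      rw [Measure.integral_comp_inv_smul_of_nonneg volume ψ hs.le]
      rw [hψ, integral_indicator hM]
      simp_rw [hk]
      rw [Module.finrank_fintype_fun_eq_card]
      rw [show (fun y => (1 - t) ^ k * f y * h t) = fun y => ((1 - t) ^ k * h t) * f y from by
        funext y; ring]
      rw [integral_const_mul]
      simp only [smul_eq_mul]
      ring
    · rw [indicator_of_notMem ht]
      have hz : ∀ x : ι → ℝ, (pyr0 M).indicator F (Sum.elim x (fun _ => t)) = 0 := by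
        intro x
        apply indicator_of_notMem
        rintro ⟨h0, h1, -⟩
        exact ht ⟨h0, h1⟩
      simp [hz]
  simp_rw [hinner]
  rw [integral_indicator measurableSet_Ico, integral_mul_const, mul_comm]
  congr 1
  rw [intervalIntegral.integral_of_le zero_le_one, integral_Ico_eq_integral_Ioc]

lemma int_one_sub_pow (m : ℕ) : ∫ t in (0:ℝ)..1, (1 - t) ^ m = 1 / ((m:ℝ) + 1) := by
  have h := intervalIntegral.integral_comp_sub_left (fun x : ℝ => x ^ m) (1:ℝ) (a := 0) (b := 1)
  simp only [sub_self, sub_zero] at h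
  rw [h, integral_pow]
  simp

lemma int_h0 (m : ℕ) :
    ∫ t in (0:ℝ)..1, (fun _ : ℝ => (1:ℝ)) t * (1 - t) ^ m = 1 / ((m:ℝ) + 1) := by
  simp only [one_mul]
  exact int_one_sub_pow m

lemma int_h1 (m : ℕ) : ∫ t in (0:ℝ)..1, (fun t : ℝ => t) t * (1 - t) ^ m
    = 1 / (((m:ℝ) + 1) * ((m:ℝ) + 2)) := by
  have h : ∀ t : ℝ, t * (1 - t) ^ m = (1 - t) ^ m - (1 - t) ^ (m + 1) := by
    intro t; ring
  simp only [h]
  rw [intervalIntegral.integral_sub, int_one_sub_pow, int_one_sub_pow]
  · have h1 : ((m:ℝ) + 1) ≠ 0 := by positivity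
    have h2 : ((m:ℝ) + 2) ≠ 0 := by positivity
    push_cast
    field_simp
    ring
  · exact (Continuous.intervalIntegrable (by fun_prop) _ _)
  · exact (Continuous.intervalIntegrable (by fun_prop) _ _)

lemma int_h2 (m : ℕ) : ∫ t in (0:ℝ)..1, (fun t : ℝ => t ^ 2) t * (1 - t) ^ m
    = 2 / (((m:ℝ) + 1) * ((m:ℝ) + 2) * ((m:ℝ) + 3)) := by
  have h : ∀ t : ℝ, t ^ 2 * (1 - t) ^ m
      = (1 - t) ^ m - 2 * (1 - t) ^ (m + 1) + (1 - t) ^ (m + 2) := by
    intro t; ring
  simp only [h]
  rw [intervalIntegral.integral_add, intervalIntegral.integral_sub,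
    intervalIntegral.integral_const_mul, int_one_sub_pow, int_one_sub_pow, int_one_sub_pow]
  · have h1 : ((m:ℝ) + 1) ≠ 0 := by positivity
    have h2 : ((m:ℝ) + 2) ≠ 0 := by positivity
    have h3 : ((m:ℝ) + 3) ≠ 0 := by positivity
    push_cast
    field_simp
    ring
  · exact (Continuous.intervalIntegrable (by fun_prop) _ _)
  · exact (Continuous.intervalIntegrable (by fun_prop) _ _)
  · exact (Continuous.intervalIntegrable (by fun_prop) _ _)
  · exact (Continuous.intervalIntegrable (by fun_prop) _ _)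

variable {M : Set (ι → ℝ)}

lemma vol_eq_integral (K : Set (ι → ℝ)) : vol K = ∫ _x in K, (1:ℝ) := by
  simp [vol, Measure.real]

lemma vol_pyr (hM : MeasurableSet M) (hb : Bornology.IsBounded M) :
    vol (pyr M) = vol M / ((Fintype.card ι : ℝ) + 1) := by
  have h := integral_pyr hM hb (fun _ => (1:ℝ)) continuous_const 0 (by intro c y; simp)
    (fun _ => (1:ℝ)) continuous_const
  rw [int_h0] at h
  rw [vol_eq_integral, vol_eq_integral]
  simp only [mul_one] at h
  rw [h]
  push_cast
  ring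

lemma mom1_pyr_inl (hM : MeasurableSet M) (hb : Bornology.IsBounded M) (i : ι) :
    mom1 (pyr M) (Sum.inl i) = mom1 M i / ((Fintype.card ι : ℝ) + 2) := by
  have h := integral_pyr hM hb (fun y => y i) (continuous_apply i) 1 (by intro c y; simp)
    (fun _ => (1:ℝ)) continuous_const
  rw [int_h0] at h
  simp only [mul_one] at h
  unfold mom1
  rw [h]
  push_cast
  ring

lemma mom1_pyr_inr (hM : MeasurableSet M) (hb : Bornology.IsBounded M) :
    mom1 (pyr M) (Sum.inr ()) =
      vol M / (((Fintype.card ι : ℝ) + 1) * ((Fintype.card ι : ℝ) + 2)) := by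
  have h := integral_pyr hM hb (fun _ => (1:ℝ)) continuous_const 0 (by intro c y; simp)
    (fun t => t) continuous_id
  rw [int_h1] at h
  simp only [one_mul] at h
  unfold mom1
  rw [h, vol_eq_integral]
  push_cast
  ring

lemma mom2_pyr_inl_inl (hM : MeasurableSet M) (hb : Bornology.IsBounded M) (i j : ι) :
    mom2 (pyr M) (Sum.inl i) (Sum.inl j) = mom2 M i j / ((Fintype.card ι : ℝ) + 3) := by
  have h := integral_pyr hM hb (fun y => y i * y j)
    ((continuous_apply i).mul (continuous_apply j)) 2 (by intro c y; simp; ring)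
    (fun _ => (1:ℝ)) continuous_const
  rw [int_h0] at h
  simp only [mul_one] at h
  unfold mom2
  rw [h]
  push_cast
  ring

lemma mom2_pyr_inl_inr (hM : MeasurableSet M) (hb : Bornology.IsBounded M) (i : ι) :
    mom2 (pyr M) (Sum.inl i) (Sum.inr ()) =
      mom1 M i / (((Fintype.card ι : ℝ) + 2) * ((Fintype.card ι : ℝ) + 3)) := by
  have h := integral_pyr hM hb (fun y => y i) (continuous_apply i) 1 (by intro c y; simp)
    (fun t => t) continuous_id
  rw [int_h1] at h
  unfold mom2 mom1
  rw [h]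
  push_cast
  ring

lemma mom2_pyr_inr_inl (hM : MeasurableSet M) (hb : Bornology.IsBounded M) (i : ι) :
    mom2 (pyr M) (Sum.inr ()) (Sum.inl i) =
      mom1 M i / (((Fintype.card ι : ℝ) + 2) * ((Fintype.card ι : ℝ) + 3)) := by
  rw [← mom2_pyr_inl_inr hM hb i]
  unfold mom2
  congr 1
  funext z
  ring

lemma mom2_pyr_inr_inr (hM : MeasurableSet M) (hb : Bornology.IsBounded M) :
    mom2 (pyr M) (Sum.inr ()) (Sum.inr ()) =
      2 * vol M / (((Fintype.card ι : ℝ) + 1) * ((Fintype.card ι : ℝ) + 2)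
        * ((Fintype.card ι : ℝ) + 3)) := by
  have h := integral_pyr hM hb (fun _ => (1:ℝ)) continuous_const 0 (by intro c y; simp)
    (fun t => t ^ 2) (by fun_prop)
  rw [int_h2] at h
  simp only [one_mul] at h
  have h2 : ∫ z in pyr M, z (Sum.inr ()) * z (Sum.inr ()) =
      ∫ z in pyr M, z (Sum.inr ()) ^ 2 := by
    congr 1
    funext z
    ring
  unfold mom2
  rw [h2, h, vol_eq_integral]
  push_cast
  ring

variable [DecidableEq ι]

lemma det_bordered (A : Matrix ι ι ℝ) (b : ι → ℝ) (c : ℝ) :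
    (Matrix.fromBlocks (A + c • Matrix.of (fun i j => b i * b j))
      (Matrix.of fun i (_ : Unit) => -c * b i)
      (Matrix.of fun (_ : Unit) j => -c * b j)
      (Matrix.of fun (_ : Unit) (_ : Unit) => c)).det = c * A.det := by
  have hmul : Matrix.fromBlocks (A + c • Matrix.of (fun i j => b i * b j))
      (Matrix.of fun i (_ : Unit) => -c * b i)
      (Matrix.of fun (_ : Unit) j => -c * b j)
      (Matrix.of fun (_ : Unit) (_ : Unit) => c) *
      Matrix.fromBlocks (1 : Matrix ι ι ℝ) 0 (Matrix.of fun (_ : Unit) j => b j) 1 =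
      Matrix.fromBlocks A (Matrix.of fun i (_ : Unit) => -c * b i) 0
        (Matrix.of fun (_ : Unit) (_ : Unit) => c) := by
    rw [Matrix.fromBlocks_multiply]
    congr 1
    · ext i j
      simp [Matrix.mul_apply]
      ring
    · ext i j
      simp
    · ext i j
      simp [Matrix.mul_apply]
    · ext i j
      simp
  have h1 := congrArg Matrix.det hmul
  rw [Matrix.det_mul, Matrix.det_fromBlocks_zero₁₂, Matrix.det_fromBlocks_zero₂₁] at h1
  simp only [Matrix.det_one, Matrix.det_unique, Matrix.of_apply] at h1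
  simp only [Matrix.one_apply_eq, mul_one] at h1
  rw [h1, mul_comm]

omit [DecidableEq ι] in
lemma cov_pyr (hM : MeasurableSet M) (hb : Bornology.IsBounded M) (hV : vol M ≠ 0) :
    cov (pyr M) = Matrix.fromBlocks
      ((((Fintype.card ι : ℝ) + 1) / ((Fintype.card ι : ℝ) + 3)) • cov M +
        (((Fintype.card ι : ℝ) + 1) / (((Fintype.card ι : ℝ) + 3) * ((Fintype.card ι : ℝ) + 2) ^ 2))
          • Matrix.of (fun i j => centroid M i * centroid M j))
      (Matrix.of fun i (_ : Unit) =>
        -(((Fintype.card ι : ℝ) + 1) / (((Fintype.card ι : ℝ) + 3) * ((Fintype.card ι : ℝ) + 2) ^ 2))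
          * centroid M i)
      (Matrix.of fun (_ : Unit) j =>
        -(((Fintype.card ι : ℝ) + 1) / (((Fintype.card ι : ℝ) + 3) * ((Fintype.card ι : ℝ) + 2) ^ 2))
          * centroid M j)
      (Matrix.of fun (_ : Unit) (_ : Unit) =>
        ((Fintype.card ι : ℝ) + 1) / (((Fintype.card ι : ℝ) + 3) * ((Fintype.card ι : ℝ) + 2) ^ 2)) := by
  have h1 : ((Fintype.card ι : ℝ) + 1) ≠ 0 := by positivity
  have h2 : ((Fintype.card ι : ℝ) + 2) ≠ 0 := by positivity
  have h3 : ((Fintype.card ι : ℝ) + 3) ≠ 0 := by positivity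
  ext p q
  rcases p with i | u <;> rcases q with j | v
  · simp only [cov, centroid, Matrix.fromBlocks_apply₁₁, Matrix.add_apply, Matrix.smul_apply,
      Matrix.of_apply, smul_eq_mul]
    rw [mom2_pyr_inl_inl hM hb, mom1_pyr_inl hM hb, mom1_pyr_inl hM hb, vol_pyr hM hb]
    field_simp
    ring
  · simp only [cov, centroid, Matrix.fromBlocks_apply₁₂, Matrix.of_apply]
    rw [mom2_pyr_inl_inr hM hb, mom1_pyr_inl hM hb, mom1_pyr_inr hM hb, vol_pyr hM hb]
    field_simp
    ring
  · simp only [cov, centroid, Matrix.fromBlocks_apply₂₁, Matrix.of_apply]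
    rw [mom2_pyr_inr_inl hM hb, mom1_pyr_inl hM hb, mom1_pyr_inr hM hb, vol_pyr hM hb]
    field_simp
    ring
  · simp only [cov, centroid, Matrix.fromBlocks_apply₂₂, Matrix.of_apply]
    rw [mom2_pyr_inr_inr hM hb, mom1_pyr_inr hM hb, vol_pyr hM hb]
    field_simp
    ring

/-- The universal constant by which `det Cov / vol^2` is multiplied when passing from a base in
dimension `n` to the pyramid over it (dimension `n + 1`). -/
def pyrConst (n : ℕ) : ℝ := ((n : ℝ) + 1) ^ (n + 3) / (((n : ℝ) + 3) ^ (n + 1) * ((n : ℝ) + 2) ^ 2)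

lemma pyrConst_pos (n : ℕ) : 0 < pyrConst n := by
  unfold pyrConst
  positivity

theorem isoRatio_pyr (hM : MeasurableSet M) (hb : Bornology.IsBounded M) :
    isoRatio (pyr M) = pyrConst (Fintype.card ι) * isoRatio M := by
  by_cases hV : vol M = 0
  · simp [isoRatio, vol_pyr hM hb, hV]
  have h1 : ((Fintype.card ι : ℝ) + 1) ≠ 0 := by positivity
  have h2 : ((Fintype.card ι : ℝ) + 2) ≠ 0 := by positivity
  have h3 : ((Fintype.card ι : ℝ) + 3) ≠ 0 := by positivity
  unfold isoRatio pyrConst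
  rw [cov_pyr hM hb hV, det_bordered, Matrix.det_smul, vol_pyr hM hb, div_pow]
  field_simp
  ring

omit [DecidableEq ι] in
lemma pyr_stdSimp : pyr (stdSimp ι) = stdSimp (ι ⊕ Unit) := by
  ext z
  constructor
  · rintro ⟨h0, h1, y, ⟨hy0, hy1⟩, hxy⟩
    refine ⟨?_, ?_⟩
    · intro p
      rcases p with i | u
      · rw [hxy i]
        exact mul_nonneg (by linarith) (hy0 i)
      · exact h0
    · rw [Fintype.sum_sum_type]
      simp only [Finset.univ_unique, Finset.sum_singleton]
      have hs : ∑ i, z (Sum.inl i) = (1 - z (Sum.inr ())) * ∑ i, y i := by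
        rw [Finset.mul_sum]
        exact Finset.sum_congr rfl fun i _ => hxy i
      rw [hs]
      have : (1 - z (Sum.inr ())) * ∑ i, y i ≤ (1 - z (Sum.inr ())) * 1 :=
        mul_le_mul_of_nonneg_left hy1 (by linarith)
      have hd : z (Sum.inr default) = z (Sum.inr ()) := rfl
      linarith
  · rintro ⟨hz0, hz1⟩
    rw [Fintype.sum_sum_type] at hz1
    simp only [Finset.univ_unique, Finset.sum_singleton] at hz1
    have hd : z (Sum.inr default) = z (Sum.inr ()) := rfl
    rw [hd] at hz1
    have hsum0 : 0 ≤ ∑ i, z (Sum.inl i) := Finset.sum_nonneg fun i _ => hz0 _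
    have ht0 : 0 ≤ z (Sum.inr ()) := hz0 _
    have ht1 : z (Sum.inr ()) ≤ 1 := by linarith
    refine ⟨ht0, ht1, ?_⟩
    rcases eq_or_lt_of_le ht1 with h1 | h1
    · refine ⟨0, ⟨fun i => le_refl _, by simp⟩, fun i => ?_⟩
      have hs0 : ∑ i, z (Sum.inl i) = 0 := by linarith
      have := (Finset.sum_eq_zero_iff_of_nonneg (fun i _ => hz0 (Sum.inl i))).1 hs0 i
        (Finset.mem_univ i)
      rw [this]
      simp
    · have hs : 0 < 1 - z (Sum.inr ()) := by linarith
      refine ⟨fun i => z (Sum.inl i) / (1 - z (Sum.inr ())), ⟨fun i => ?_, ?_⟩, fun i => ?_⟩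
      · exact div_nonneg (hz0 _) hs.le
      · rw [← Finset.sum_div, div_le_one hs]
        linarith
      · field_simp

omit [DecidableEq ι] in
lemma measurableSet_stdSimp : MeasurableSet (stdSimp ι) := by
  have h1 : MeasurableSet {y : ι → ℝ | ∀ i, 0 ≤ y i} := by
    have : {y : ι → ℝ | ∀ i, 0 ≤ y i} = ⋂ i, {y : ι → ℝ | 0 ≤ y i} := by
      ext y; simp
    rw [this]
    exact MeasurableSet.iInter fun i => measurableSet_le measurable_const (measurable_pi_apply i)
  have h2 : MeasurableSet {y : ι → ℝ | ∑ i, y i ≤ 1} :=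
    measurableSet_le (Finset.measurable_sum _ fun i _ => measurable_pi_apply i) measurable_const
  exact h1.inter h2

omit [DecidableEq ι] in
lemma isBounded_stdSimp : Bornology.IsBounded (stdSimp ι) := by
  rw [isBounded_iff_forall_norm_le]
  refine ⟨1, fun y hy => ?_⟩
  rw [pi_norm_le_iff_of_nonneg zero_le_one]
  intro i
  rw [Real.norm_eq_abs, abs_of_nonneg (hy.1 i)]
  calc y i ≤ ∑ j, y j := Finset.single_le_sum (fun j _ => hy.1 j) (Finset.mem_univ i)
    _ ≤ 1 := hy.2

theorem isoRatio_stdSimp_succ :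
    isoRatio (stdSimp (ι ⊕ Unit)) = pyrConst (Fintype.card ι) * isoRatio (stdSimp ι) := by
  rw [← pyr_stdSimp, isoRatio_pyr measurableSet_stdSimp isBounded_stdSimp]

end

end Vale.Agent.Helper22
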