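import Vale.Agent.Helper22.SharpGeom
import Vale.Agent.Helper22.SharpFlow
import Vale.Agent.Helper22.TowerAux

/-!
The sharp tower theorem for nonincreasing profiles: for a centred bounded measurable base `M`
in dimension `m ≥ 1` and a continuous, concave, nonincreasing, nonnegative profile `f` on
`[0, L]`, the tower `{(f(t) y, t) : y ∈ M, 0 ≤ t ≤ L}` has `det (Cov) / vol^2` equal to an
explicit factor times that of `M`, and the factor is at most the value `pyrConst m` attained
by cones.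
-/

namespace Vale.Agent.Helper22

open MeasureTheory Set

noncomputable section

variable {ι : Type*} [Fintype ι]

omit [Fintype ι] in
lemma ctower_cone (M : Set (ι → ℝ)) : ctower M (fun t => 1 - t) 0 1 = pyr M := rfl

theorem sharp_tower_main [DecidableEq ι] (hdim : 1 ≤ Fintype.card ι)
    (M : Set (ι → ℝ)) (hM : MeasurableSet M) (hb : Bornology.IsBounded M)
    (hcen : ∀ i, mom1 M i = 0)
    (f : ℝ → ℝ) (L : ℝ) (hL : 0 < L)
    (hcont : ContinuousOn f (Icc 0 L)) (hconc : ConcaveOn ℝ (Icc 0 L) f)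
    (hanti : AntitoneOn f (Icc 0 L)) (hnn : ∀ t ∈ Icc 0 L, 0 ≤ f t) (hf0 : 0 < f 0) :
    isoRatio (ctower M f 0 L) = profileFactor (Fintype.card ι) f 0 L * isoRatio M ∧
    0 ≤ profileFactor (Fintype.card ι) f 0 L ∧
    profileFactor (Fintype.card ι) f 0 L ≤ pyrConst (Fintype.card ι) ∧
    (isoRatio M ≤ isoRatio (stdSimp ι) →
      isoRatio (ctower M f 0 L) ≤ isoRatio (stdSimp (ι ⊕ Unit))) ∧
    (MeasurableSet (ctower M f 0 L) ∧ Bornology.IsBounded (ctower M f 0 L)) ∧
    (Convex ℝ M → (0 : ι → ℝ) ∈ M → Convex ℝ (ctower M f 0 L)) := by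
  set g : ℝ → ℝ := fun t => f (max 0 (min L t)) with hg
  have hclamp : ∀ t : ℝ, max 0 (min L t) ∈ Icc 0 L := fun t =>
    ⟨le_max_left _ _, max_le hL.le (min_le_left _ _)⟩
  have hgeq : ∀ t ∈ Icc 0 L, g t = f t := by
    intro t ht
    simp only [hg]
    rw [min_eq_right ht.2, max_eq_right ht.1]
  have hgc : Continuous g :=
    hcont.comp_continuous (continuous_const.max (continuous_const.min continuous_id)) hclamp
  have hgconc : ConcaveOn ℝ (Icc 0 L) g := hconc.congr fun t ht => (hgeq t ht).symm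
  have hganti : AntitoneOn g (Icc 0 L) := by
    intro a ha b hb' hab
    rw [hgeq a ha, hgeq b hb']
    exact hanti ha hb' hab
  have hgnn : ∀ t ∈ Icc 0 L, 0 ≤ g t := fun t ht => by rw [hgeq t ht]; exact hnn t ht
  have h0m : (0:ℝ) ∈ Icc 0 L := ⟨le_refl _, hL.le⟩
  have hg0 : 0 < g 0 := by rw [hgeq 0 h0m]; exact hf0
  have htow : ctower M f 0 L = ctower M g 0 L := ctower_congr M hgeq
  have hfac : profileFactor (Fintype.card ι) f 0 L = profileFactor (Fintype.card ι) g 0 L :=
    profileFactor_congr _ hL.le hgeq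
  have hpos : ∀ t ∈ Ioo 0 L, 0 < g t := fun t ht =>
    pos_of_concave hgconc hgnn hg0 ⟨ht.1.le, ht.2⟩
  have hpos' : ∀ t ∈ Ico 0 L, 0 < g t := fun t ht => pos_of_concave hgconc hgnn hg0 ht
  have hB : ∀ t ∈ Ioo 0 L, g t ≤ g 0 := fun t ht => hganti h0m ⟨ht.1.le, ht.2.le⟩ ht.1.le
  have hB' : ∀ t ∈ Icc 0 L, abs (g t) ≤ g 0 := fun t ht => by
    rw [abs_of_nonneg (hgnn _ ht)]
    exact hganti h0m ht ht.1
  have hI : 0 < ∫ t in (0:ℝ)..L, g t ^ Fintype.card ι := int_pow_pos hgc hgconc hgnn hg0 hL _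
  have hform : isoRatio (ctower M g 0 L) = profileFactor (Fintype.card ι) g 0 L * isoRatio M :=
    isoRatio_ctower hM hb hgc hL.le hpos hB hcen hI
  have hsharp := sharp_bound hgc hgconc hganti hgnn hg0 hL (Fintype.card ι) hdim
  have hI4 : 0 < (∫ t in (0:ℝ)..L, g t ^ Fintype.card ι) ^ (Fintype.card ι + 4) := pow_pos hI _
  have hbound : profileFactor (Fintype.card ι) g 0 L ≤ pyrConst (Fintype.card ι) := by
    unfold profileFactor
    rw [div_le_iff₀ hI4]
    exact hsharp
  have hnonneg : 0 ≤ profileFactor (Fintype.card ι) g 0 L := by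
    unfold profileFactor
    apply div_nonneg _ hI4.le
    apply mul_nonneg
    · obtain ⟨e1, -, -, -, e5⟩ := tail_cheb_ids (L := L) hgc (Fintype.card ι) 0
      simp only [sub_zero] at e1 e5
      have eI : ∫ t in (0:ℝ)..L, g t ^ Fintype.card ι = tailInt g (Fintype.card ι) L 0 := rfl
      have hU := tail_u hgc hganti hgnn (Fintype.card ι) (le_refl (0:ℝ)) hL.le
      have hI0 := tailInt_pos hgc hpos' (Fintype.card ι) (le_refl (0:ℝ)) hL
      have hP2 := tail2_pos hgc hpos' (Fintype.card ι) (le_refl (0:ℝ)) hL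
      rw [e1, e5, eI]
      nlinarith [mul_pos hI0 hP2]
    · exact pow_nonneg (int_pow_pos hgc hgconc hgnn hg0 hL _).le _
  rw [htow, hfac]
  refine ⟨hform, hnonneg, hbound, ?_, ⟨measurableSet_ctower hM hgc 0 L, isBounded_ctower hb hB'⟩,
    ?_⟩
  · intro hle
    have hsp : 0 < isoRatio (stdSimp ι) := isoRatio_stdSimp_pos
    rw [hform, isoRatio_stdSimp_succ]
    calc profileFactor (Fintype.card ι) g 0 L * isoRatio M
        ≤ profileFactor (Fintype.card ι) g 0 L * isoRatio (stdSimp ι) :=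
          mul_le_mul_of_nonneg_left hle hnonneg
      _ ≤ pyrConst (Fintype.card ι) * isoRatio (stdSimp ι) :=
          mul_le_mul_of_nonneg_right hbound hsp.le
  · intro hMc h0M
    exact convex_ctower hgconc hgnn hMc h0M

end

end Vale.Agent.Helper22
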