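import Vale.Agent.Helper22.IsoDefs

/-!
Definitions for the tower theorem of P254: the symmetric tower over a base set and the factor by
which `det (Cov) / vol^2` changes when passing from the base to the tower.
-/

namespace Vale.Agent.Helper22

open MeasureTheory

noncomputable section

variable {ι : Type*}

/-- The symmetric tower over `M` with profile `f` and half-height `L`, as a subset of
`(ι ⊕ Unit) → ℝ`: the points `(f(|t|) y, t)` with `y ∈ M` and `|t| ≤ L`. -/
def tower (M : Set (ι → ℝ)) (f : ℝ → ℝ) (L : ℝ) : Set (ι ⊕ Unit → ℝ) :=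
  {z | |z (Sum.inr ())| ≤ L ∧ ∃ y ∈ M, ∀ i, z (Sum.inl i) = f |z (Sum.inr ())| * y i}

/-- The factor by which `det (Cov) / vol^2` is multiplied when passing from a centred base in
dimension `m` to the symmetric tower over it with profile `f` and half-height `L`:
`(∫_0^L t^2 f^m) (∫_0^L f^(m+2))^m / (4 (∫_0^L f^m)^(m+3))`. -/
def towerFactor (m : ℕ) (f : ℝ → ℝ) (L : ℝ) : ℝ :=
  (∫ t in (0:ℝ)..L, t ^ 2 * f t ^ m) * (∫ t in (0:ℝ)..L, f t ^ (m + 2)) ^ m /
    (4 * (∫ t in (0:ℝ)..L, f t ^ m) ^ (m + 3))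

end

end Vale.Agent.Helper22
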