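import Vale.Agent.Helper22.Pyramid
import Vale.Agent.Helper22.Tower1D
import Vale.Agent.Helper22.TowerDefs

/-!
Symmetric towers `{(f(|t|) y, t) : y ∈ M, |t| ≤ L}` over a bounded measurable base `M`:
moments, covariance matrix and the formula for `det (Cov) / vol^2`.
-/

namespace Vale.Agent.Helper22

open MeasureTheory Set

noncomputable section

variable {ι : Type*} [Fintype ι]

/-- The tower without its two extreme layers `t = ± L`. -/
def tower0 (M : Set (ι → ℝ)) (f : ℝ → ℝ) (L : ℝ) : Set (ι ⊕ Unit → ℝ) :=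
  {z | |z (Sum.inr ())| < L ∧ (fun i => z (Sum.inl i) / f |z (Sum.inr ())|) ∈ M}

lemma tower_ae_eq (M : Set (ι → ℝ)) {f : ℝ → ℝ} {L : ℝ}
    (hpos : ∀ t, |t| < L → 0 < f |t|) : tower M f L =ᵐ[volume] tower0 M f L := by
  have hnull1 : (volume : Measure (ι ⊕ Unit → ℝ)) {z | z (Sum.inr ()) = L} = 0 :=
    Measure.pi_hyperplane (α := fun _ : ι ⊕ Unit => ℝ) (fun _ => volume) (Sum.inr ()) L
  have hnull2 : (volume : Measure (ι ⊕ Unit → ℝ)) {z | z (Sum.inr ()) = -L} = 0 :=
    Measure.pi_hyperplane (α := fun _ : ι ⊕ Unit => ℝ) (fun _ => volume) (Sum.inr ()) (-L)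
  have hc1 : ∀ᵐ z ∂(volume : Measure (ι ⊕ Unit → ℝ)), z (Sum.inr ()) ≠ L := by
    rw [ae_iff]
    simpa using hnull1
  have hc2 : ∀ᵐ z ∂(volume : Measure (ι ⊕ Unit → ℝ)), z (Sum.inr ()) ≠ -L := by
    rw [ae_iff]
    simpa using hnull2
  filter_upwards [hc1, hc2] with z hz1 hz2
  apply propext
  constructor
  · rintro ⟨h1, y, hy, hxy⟩
    have hlt : |z (Sum.inr ())| < L := by
      refine lt_of_le_of_ne h1 fun habs => ?_
      rcases eq_or_eq_neg_of_abs_eq habs with h | h
      · exact hz1 h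
      · exact hz2 h
    refine ⟨hlt, ?_⟩
    have hs := hpos _ hlt
    have : (fun i => z (Sum.inl i) / f |z (Sum.inr ())|) = y := by
      funext i
      rw [hxy i]
      field_simp
    rw [this]; exact hy
  · rintro ⟨h1, hm⟩
    have hs := hpos _ h1
    refine ⟨h1.le, _, hm, fun i => ?_⟩
    field_simp

lemma measurableSet_tower0 {M : Set (ι → ℝ)} (hM : MeasurableSet M) {f : ℝ → ℝ}
    (hfc : Continuous f) (L : ℝ) : MeasurableSet (tower0 M f L) := by
  have h1 : MeasurableSet {z : ι ⊕ Unit → ℝ | |z (Sum.inr ())| < L} :=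
    measurableSet_lt (continuous_abs.comp (continuous_apply _)).measurable measurable_const
  have hfm : Measurable (fun z : ι ⊕ Unit → ℝ => f |z (Sum.inr ())|) :=
    (hfc.comp (continuous_abs.comp (continuous_apply _))).measurable
  have h3 : Measurable
      (fun z : ι ⊕ Unit → ℝ => (fun i => z (Sum.inl i) / f |z (Sum.inr ())|)) := by
    refine measurable_pi_lambda _ fun i => ?_
    exact (measurable_pi_apply _).div hfm
  exact h1.inter (h3 hM)

lemma isBounded_tower0 {M : Set (ι → ℝ)} (hb : Bornology.IsBounded M) {f : ℝ → ℝ} {L : ℝ}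
    (hpos : ∀ t, |t| < L → 0 < f |t|) {B : ℝ} (hB : ∀ t, |t| < L → f |t| ≤ B) :
    Bornology.IsBounded (tower0 M f L) := by
  obtain ⟨R, hR⟩ := hb.exists_norm_le
  rw [isBounded_iff_forall_norm_le]
  refine ⟨max (R * |B|) |L|, fun z hz => ?_⟩
  obtain ⟨h1, hm⟩ := hz
  have hRy := hR _ hm
  have hR0 : 0 ≤ R := le_trans (norm_nonneg _) hRy
  have hRB : 0 ≤ R * |B| := mul_nonneg hR0 (abs_nonneg _)
  rw [pi_norm_le_iff_of_nonneg (le_trans hRB (le_max_left _ _))]
  have hs := hpos _ h1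
  intro i
  cases i with
  | inl i =>
    have h2 := (pi_norm_le_iff_of_nonneg hR0).1 hRy i
    simp only [Real.norm_eq_abs] at h2 ⊢
    rw [abs_div, abs_of_pos hs, div_le_iff₀ hs] at h2
    refine le_trans h2 (le_trans ?_ (le_max_left _ _))
    exact mul_le_mul_of_nonneg_left (le_trans (hB _ h1) (le_abs_self B)) hR0
  | inr u =>
    simp only [Real.norm_eq_abs]
    exact le_trans h1.le (le_trans (le_abs_self L) (le_max_right _ _))

/-- Integral over the tower of a product of a `k`-homogeneous continuous function of the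
base variable and a continuous function of the height. -/
lemma integral_tower {M : Set (ι → ℝ)} (hM : MeasurableSet M) (hb : Bornology.IsBounded M)
    {f : ℝ → ℝ} (hfc : Continuous f) {L : ℝ} (hL : 0 < L)
    (hpos : ∀ t, |t| < L → 0 < f |t|) {B : ℝ} (hB : ∀ t, |t| < L → f |t| ≤ B)
    (φ : (ι → ℝ) → ℝ) (hφ : Continuous φ) (k : ℕ)
    (hk : ∀ (c : ℝ) (y : ι → ℝ), φ (c • y) = c ^ k * φ y) (h : ℝ → ℝ) (hh : Continuous h) :
    ∫ z in tower M f L, φ (fun i => z (Sum.inl i)) * h (z (Sum.inr ())) =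
      (∫ y in M, φ y) * ∫ t in (-L)..L, h t * f |t| ^ (Fintype.card ι + k) := by
  rw [setIntegral_congr_set (tower_ae_eq M hpos)]
  set F : (ι ⊕ Unit → ℝ) → ℝ := fun z => φ (fun i => z (Sum.inl i)) * h (z (Sum.inr ())) with hF
  have hFc : Continuous F := by
    refine (hφ.comp ?_).mul (hh.comp (continuous_apply _))
    exact continuous_pi fun i => continuous_apply _
  have hmeas := measurableSet_tower0 hM hfc L
  have hint : IntegrableOn F (tower0 M f L) := by
    obtain ⟨R, hR⟩ := (isBounded_tower0 hb hpos hB).subset_closedBall (0 : ι ⊕ Unit → ℝ)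
    exact (hFc.continuousOn.integrableOn_compact (isCompact_closedBall _ _)).mono_set hR
  rw [← integral_indicator hmeas]
  rw [integral_sum_pi _ (hint.integrable_indicator hmeas)]
  have hinner : ∀ t : ℝ, ∫ x : ι → ℝ, (tower0 M f L).indicator F (Sum.elim x (fun _ => t)) =
      (Ioo (-L) L).indicator
        (fun t => (h t * f |t| ^ (Fintype.card ι + k)) * ∫ y in M, φ y) t := by
    intro t
    by_cases ht : t ∈ Ioo (-L) L
    · rw [indicator_of_mem ht]
      have habs : |t| < L := abs_lt.2 ht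
      have hs : 0 < f |t| := hpos t habs
      set ψ : (ι → ℝ) → ℝ := M.indicator (fun y => φ (f |t| • y) * h t) with hψ
      have hcong : ∀ x : ι → ℝ, (tower0 M f L).indicator F (Sum.elim x (fun _ => t)) =
          ψ ((f |t|)⁻¹ • x) := by
        intro x
        have hfun : (fun i => x i / f |t|) = (f |t|)⁻¹ • x := by
          funext i
          simp [div_eq_inv_mul]
        by_cases hx : (f |t|)⁻¹ • x ∈ M
        · have hz : Sum.elim x (fun _ => t) ∈ tower0 M f L := by
            refine ⟨habs, ?_⟩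
            show (fun i => x i / f |t|) ∈ M
            rw [hfun]; exact hx
          rw [indicator_of_mem hz, hψ, indicator_of_mem hx]
          show φ (fun i => x i) * h t = _
          rw [smul_smul, mul_inv_cancel₀ hs.ne', one_smul]
        · have hz : Sum.elim x (fun _ => t) ∉ tower0 M f L := by
            rintro ⟨-, hm⟩
            apply hx
            rw [← hfun]; exact hm
          rw [indicator_of_notMem hz, hψ, indicator_of_notMem hx]
      rw [integral_congr_ae (Filter.Eventually.of_forall hcong)]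
      rw [Measure.integral_comp_inv_smul_of_nonneg volume ψ hs.le]
      rw [hψ, integral_indicator hM]
      simp_rw [hk]
      rw [Module.finrank_fintype_fun_eq_card]
      rw [show (fun y => f |t| ^ k * φ y * h t) = fun y => (f |t| ^ k * h t) * φ y from by
        funext y; ring]
      rw [integral_const_mul]
      simp only [smul_eq_mul]
      ring
    · rw [indicator_of_notMem ht]
      have hz : ∀ x : ι → ℝ, (tower0 M f L).indicator F (Sum.elim x (fun _ => t)) = 0 := by
        intro x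
        apply indicator_of_notMem
        rintro ⟨h0, -⟩
        exact ht (abs_lt.1 h0)
      simp [hz]
  simp_rw [hinner]
  rw [integral_indicator measurableSet_Ioo, integral_mul_const, mul_comm]
  congr 1
  rw [intervalIntegral.integral_of_le (by linarith), integral_Ioc_eq_integral_Ioo]

lemma int_sym (h g : ℝ → ℝ) (hh : Continuous h) (hg : Continuous g) {L : ℝ} (hL : 0 ≤ L) :
    ∫ t in (-L)..L, h t * g |t| = ∫ t in (0:ℝ)..L, (h t + h (-t)) * g t := by
  have hF : Continuous fun t => h t * g |t| := by fun_prop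
  rw [← intervalIntegral.integral_add_adjacent_intervals (hF.intervalIntegrable (-L) 0)
    (hF.intervalIntegrable 0 L)]
  have h1 : ∫ t in (-L)..0, h t * g |t| = ∫ t in (0:ℝ)..L, h (-t) * g t := by
    have := intervalIntegral.integral_comp_neg (a := (0:ℝ)) (b := L) (fun t => h t * g |t|)
    simp only [neg_zero] at this
    rw [← this]
    apply intervalIntegral.integral_congr
    intro t ht
    rw [uIcc_of_le hL] at ht
    simp only
    rw [abs_neg, abs_of_nonneg ht.1]
  have h2 : ∫ t in (0:ℝ)..L, h t * g |t| = ∫ t in (0:ℝ)..L, h t * g t := by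
    apply intervalIntegral.integral_congr
    intro t ht
    rw [uIcc_of_le hL] at ht
    simp only
    rw [abs_of_nonneg ht.1]
  rw [h1, h2, ← intervalIntegral.integral_add]
  · congr 1
    funext t
    ring
  · exact Continuous.intervalIntegrable (by fun_prop) _ _
  · exact Continuous.intervalIntegrable (by fun_prop) _ _

lemma int_sym0 (g : ℝ → ℝ) (hg : Continuous g) {L : ℝ} (hL : 0 ≤ L) :
    ∫ t in (-L)..L, (fun _ : ℝ => (1:ℝ)) t * g |t| = 2 * ∫ t in (0:ℝ)..L, g t := by
  rw [int_sym (fun _ : ℝ => (1:ℝ)) g continuous_const hg hL,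
    ← intervalIntegral.integral_const_mul]
  congr 1
  funext t
  ring

lemma int_sym1 (g : ℝ → ℝ) (hg : Continuous g) {L : ℝ} (hL : 0 ≤ L) :
    ∫ t in (-L)..L, (fun t : ℝ => t) t * g |t| = 0 := by
  rw [int_sym (fun t : ℝ => t) g continuous_id hg hL]
  simp

lemma int_sym2 (g : ℝ → ℝ) (hg : Continuous g) {L : ℝ} (hL : 0 ≤ L) :
    ∫ t in (-L)..L, (fun t : ℝ => t ^ 2) t * g |t| = 2 * ∫ t in (0:ℝ)..L, t ^ 2 * g t := by
  rw [int_sym (fun t : ℝ => t ^ 2) g (by fun_prop) hg hL,
    ← intervalIntegral.integral_const_mul]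
  congr 1
  funext t
  ring

variable {M : Set (ι → ℝ)} {f : ℝ → ℝ} {L : ℝ} {B : ℝ}

lemma vol_tower (hM : MeasurableSet M) (hb : Bornology.IsBounded M) (hfc : Continuous f)
    (hL : 0 < L) (hpos : ∀ t, |t| < L → 0 < f |t|) (hB : ∀ t, |t| < L → f |t| ≤ B) :
    vol (tower M f L) = vol M * (2 * ∫ t in (0:ℝ)..L, f t ^ Fintype.card ι) := by
  have h := integral_tower hM hb hfc hL hpos hB (fun _ => (1:ℝ)) continuous_const 0
    (by intro c y; simp) (fun _ => (1:ℝ)) continuous_const
  rw [int_sym0 (fun s => f s ^ (Fintype.card ι + 0)) (by fun_prop) hL.le] at h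
  simp only [mul_one, add_zero] at h
  rw [vol_eq_integral, vol_eq_integral, h]

lemma mom1_tower_inl (hM : MeasurableSet M) (hb : Bornology.IsBounded M) (hfc : Continuous f)
    (hL : 0 < L) (hpos : ∀ t, |t| < L → 0 < f |t|) (hB : ∀ t, |t| < L → f |t| ≤ B) (i : ι) :
    mom1 (tower M f L) (Sum.inl i) =
      mom1 M i * (2 * ∫ t in (0:ℝ)..L, f t ^ (Fintype.card ι + 1)) := by
  have h := integral_tower hM hb hfc hL hpos hB (fun y => y i) (continuous_apply i) 1
    (by intro c y; simp) (fun _ => (1:ℝ)) continuous_const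
  rw [int_sym0 (fun s => f s ^ (Fintype.card ι + 1)) (by fun_prop) hL.le] at h
  simp only [mul_one] at h
  unfold mom1
  rw [h]

lemma mom1_tower_inr (hM : MeasurableSet M) (hb : Bornology.IsBounded M) (hfc : Continuous f)
    (hL : 0 < L) (hpos : ∀ t, |t| < L → 0 < f |t|) (hB : ∀ t, |t| < L → f |t| ≤ B) :
    mom1 (tower M f L) (Sum.inr ()) = 0 := by
  have h := integral_tower hM hb hfc hL hpos hB (fun _ => (1:ℝ)) continuous_const 0
    (by intro c y; simp) (fun t => t) continuous_id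
  rw [int_sym1 (fun s => f s ^ (Fintype.card ι + 0)) (by fun_prop) hL.le] at h
  simp only [one_mul, mul_zero] at h
  unfold mom1
  rw [h]

lemma mom2_tower_inl_inl (hM : MeasurableSet M) (hb : Bornology.IsBounded M)
    (hfc : Continuous f) (hL : 0 < L) (hpos : ∀ t, |t| < L → 0 < f |t|)
    (hB : ∀ t, |t| < L → f |t| ≤ B) (i j : ι) :
    mom2 (tower M f L) (Sum.inl i) (Sum.inl j) =
      mom2 M i j * (2 * ∫ t in (0:ℝ)..L, f t ^ (Fintype.card ι + 2)) := by
  have h := integral_tower hM hb hfc hL hpos hB (fun y => y i * y j)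
    ((continuous_apply i).mul (continuous_apply j)) 2 (by intro c y; simp; ring)
    (fun _ => (1:ℝ)) continuous_const
  rw [int_sym0 (fun s => f s ^ (Fintype.card ι + 2)) (by fun_prop) hL.le] at h
  simp only [mul_one] at h
  unfold mom2
  rw [h]

lemma mom2_tower_inl_inr (hM : MeasurableSet M) (hb : Bornology.IsBounded M)
    (hfc : Continuous f) (hL : 0 < L) (hpos : ∀ t, |t| < L → 0 < f |t|)
    (hB : ∀ t, |t| < L → f |t| ≤ B) (i : ι) :
    mom2 (tower M f L) (Sum.inl i) (Sum.inr ()) = 0 := by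
  have h := integral_tower hM hb hfc hL hpos hB (fun y => y i) (continuous_apply i) 1
    (by intro c y; simp) (fun t => t) continuous_id
  rw [int_sym1 (fun s => f s ^ (Fintype.card ι + 1)) (by fun_prop) hL.le] at h
  simp only [mul_zero] at h
  unfold mom2
  rw [h]

lemma mom2_tower_inr_inl (hM : MeasurableSet M) (hb : Bornology.IsBounded M)
    (hfc : Continuous f) (hL : 0 < L) (hpos : ∀ t, |t| < L → 0 < f |t|)
    (hB : ∀ t, |t| < L → f |t| ≤ B) (i : ι) :
    mom2 (tower M f L) (Sum.inr ()) (Sum.inl i) = 0 := by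
  rw [← mom2_tower_inl_inr hM hb hfc hL hpos hB i]
  unfold mom2
  congr 1
  funext z
  ring

lemma mom2_tower_inr_inr (hM : MeasurableSet M) (hb : Bornology.IsBounded M)
    (hfc : Continuous f) (hL : 0 < L) (hpos : ∀ t, |t| < L → 0 < f |t|)
    (hB : ∀ t, |t| < L → f |t| ≤ B) :
    mom2 (tower M f L) (Sum.inr ()) (Sum.inr ()) =
      vol M * (2 * ∫ t in (0:ℝ)..L, t ^ 2 * f t ^ Fintype.card ι) := by
  have h := integral_tower hM hb hfc hL hpos hB (fun _ => (1:ℝ)) continuous_const 0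
    (by intro c y; simp) (fun t => t ^ 2) (by fun_prop)
  rw [int_sym2 (fun s => f s ^ (Fintype.card ι + 0)) (by fun_prop) hL.le] at h
  simp only [one_mul, add_zero] at h
  have h2 : ∫ z in tower M f L, z (Sum.inr ()) * z (Sum.inr ()) =
      ∫ z in tower M f L, z (Sum.inr ()) ^ 2 := by
    congr 1
    funext z
    ring
  unfold mom2
  rw [h2, h, vol_eq_integral]

lemma cov_tower (hM : MeasurableSet M) (hb : Bornology.IsBounded M) (hfc : Continuous f)
    (hL : 0 < L) (hpos : ∀ t, |t| < L → 0 < f |t|) (hB : ∀ t, |t| < L → f |t| ≤ B)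
    (hcen : ∀ i, mom1 M i = 0) (hV : vol M ≠ 0)
    (hI : (∫ t in (0:ℝ)..L, f t ^ Fintype.card ι) ≠ 0) :
    cov (tower M f L) = Matrix.fromBlocks
      (((∫ t in (0:ℝ)..L, f t ^ (Fintype.card ι + 2)) /
        (∫ t in (0:ℝ)..L, f t ^ Fintype.card ι)) • cov M)
      0 0
      (Matrix.of fun (_ : Unit) (_ : Unit) =>
        (∫ t in (0:ℝ)..L, t ^ 2 * f t ^ Fintype.card ι) /
          (∫ t in (0:ℝ)..L, f t ^ Fintype.card ι)) := by
  ext p q
  rcases p with i | u <;> rcases q with j | v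
  · simp only [cov, centroid, Matrix.fromBlocks_apply₁₁, Matrix.smul_apply, smul_eq_mul]
    rw [mom2_tower_inl_inl hM hb hfc hL hpos hB, mom1_tower_inl hM hb hfc hL hpos hB,
      mom1_tower_inl hM hb hfc hL hpos hB, vol_tower hM hb hfc hL hpos hB, hcen i, hcen j]
    field_simp
    ring
  · simp only [cov, centroid, Matrix.fromBlocks_apply₁₂, Matrix.zero_apply]
    rw [mom2_tower_inl_inr hM hb hfc hL hpos hB, mom1_tower_inl hM hb hfc hL hpos hB,
      mom1_tower_inr hM hb hfc hL hpos hB, hcen i]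
    simp
  · simp only [cov, centroid, Matrix.fromBlocks_apply₂₁, Matrix.zero_apply]
    rw [mom2_tower_inr_inl hM hb hfc hL hpos hB, mom1_tower_inl hM hb hfc hL hpos hB,
      mom1_tower_inr hM hb hfc hL hpos hB, hcen j]
    simp
  · simp only [cov, centroid, Matrix.fromBlocks_apply₂₂, Matrix.of_apply]
    rw [mom2_tower_inr_inr hM hb hfc hL hpos hB, mom1_tower_inr hM hb hfc hL hpos hB,
      vol_tower hM hb hfc hL hpos hB]
    field_simp
    ring

theorem isoRatio_tower [DecidableEq ι] (hM : MeasurableSet M) (hb : Bornology.IsBounded M)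
    (hfc : Continuous f) (hL : 0 < L) (hpos : ∀ t, |t| < L → 0 < f |t|)
    (hB : ∀ t, |t| < L → f |t| ≤ B) (hcen : ∀ i, mom1 M i = 0)
    (hI : 0 < ∫ t in (0:ℝ)..L, f t ^ Fintype.card ι) :
    isoRatio (tower M f L) =
      ((∫ t in (0:ℝ)..L, t ^ 2 * f t ^ Fintype.card ι) *
          (∫ t in (0:ℝ)..L, f t ^ (Fintype.card ι + 2)) ^ Fintype.card ι /
        (4 * (∫ t in (0:ℝ)..L, f t ^ Fintype.card ι) ^ (Fintype.card ι + 3))) * isoRatio M := by
  by_cases hV : vol M = 0
  · simp [isoRatio, vol_tower hM hb hfc hL hpos hB, hV]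
  unfold isoRatio
  rw [cov_tower hM hb hfc hL hpos hB hcen hV hI.ne', Matrix.det_fromBlocks_zero₁₂,
    Matrix.det_smul, vol_tower hM hb hfc hL hpos hB]
  simp only [Matrix.det_unique, Matrix.of_apply]
  have hI' := hI.ne'
  rw [div_pow]
  field_simp
  ring

omit [Fintype ι] in
lemma tower_congr (M : Set (ι → ℝ)) {f g : ℝ → ℝ} {L : ℝ}
    (hfg : ∀ t ∈ Icc 0 L, g t = f t) : tower M f L = tower M g L := by
  ext z
  constructor
  · rintro ⟨h1, y, hy, hxy⟩
    exact ⟨h1, y, hy, fun i => by rw [hxy i, hfg _ ⟨abs_nonneg _, h1⟩]⟩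
  · rintro ⟨h1, y, hy, hxy⟩
    exact ⟨h1, y, hy, fun i => by rw [hxy i, hfg _ ⟨abs_nonneg _, h1⟩]⟩

lemma measurableSet_tower (hM : MeasurableSet M) (hfc : Continuous f) (L : ℝ) :
    MeasurableSet (tower M f L) := by
  have hfm : Measurable (fun z : ι ⊕ Unit → ℝ => f |z (Sum.inr ())|) :=
    (hfc.comp (continuous_abs.comp (continuous_apply _))).measurable
  have h1 : MeasurableSet {z : ι ⊕ Unit → ℝ | |z (Sum.inr ())| ≤ L} :=
    measurableSet_le (continuous_abs.comp (continuous_apply _)).measurable measurable_const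
  have h3 : Measurable
      (fun z : ι ⊕ Unit → ℝ => (fun i => z (Sum.inl i) / f |z (Sum.inr ())|)) := by
    refine measurable_pi_lambda _ fun i => ?_
    exact (measurable_pi_apply _).div hfm
  have h0 : MeasurableSet {z : ι ⊕ Unit → ℝ | f |z (Sum.inr ())| = 0} :=
    measurableSet_eq_fun hfm measurable_const
  have hx0 : MeasurableSet {z : ι ⊕ Unit → ℝ | ∀ i, z (Sum.inl i) = 0} := by
    have : {z : ι ⊕ Unit → ℝ | ∀ i, z (Sum.inl i) = 0} = ⋂ i, {z | z (Sum.inl i) = 0} := by
      ext z; simp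
    rw [this]
    exact MeasurableSet.iInter fun i => measurableSet_eq_fun (measurable_pi_apply _)
      measurable_const
  have hne : MeasurableSet {_z : ι ⊕ Unit → ℝ | M.Nonempty} := MeasurableSet.const _
  have hset : tower M f L = {z : ι ⊕ Unit → ℝ | |z (Sum.inr ())| ≤ L} ∩
      (({z : ι ⊕ Unit → ℝ | f |z (Sum.inr ())| = 0}ᶜ ∩
          (fun z : ι ⊕ Unit → ℝ => (fun i => z (Sum.inl i) / f |z (Sum.inr ())|)) ⁻¹' M) ∪
        ({z : ι ⊕ Unit → ℝ | f |z (Sum.inr ())| = 0} ∩
          {z : ι ⊕ Unit → ℝ | ∀ i, z (Sum.inl i) = 0} ∩ {_z : ι ⊕ Unit → ℝ | M.Nonempty})) := by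
    ext z
    constructor
    · rintro ⟨hz1, y, hy, hxy⟩
      refine ⟨hz1, ?_⟩
      by_cases hs : f |z (Sum.inr ())| = 0
      · right
        exact ⟨⟨hs, fun i => by rw [hxy i, hs, zero_mul]⟩, ⟨y, hy⟩⟩
      · left
        refine ⟨hs, ?_⟩
        have : (fun i => z (Sum.inl i) / f |z (Sum.inr ())|) = y := by
          funext i
          rw [hxy i]
          field_simp
        show (fun i => z (Sum.inl i) / f |z (Sum.inr ())|) ∈ M
        rw [this]; exact hy
    · rintro ⟨hz1, ⟨hs, hm⟩ | ⟨⟨hs, hx⟩, ⟨y, hy⟩⟩⟩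
      · refine ⟨hz1, _, hm, fun i => ?_⟩
        have hs' : f |z (Sum.inr ())| ≠ 0 := hs
        field_simp
      · have hs' : f |z (Sum.inr ())| = 0 := hs
        exact ⟨hz1, y, hy, fun i => by rw [hx i, hs', zero_mul]⟩
  rw [hset]
  exact h1.inter (((h0.compl).inter (h3 hM)).union ((h0.inter hx0).inter hne))

lemma isBounded_tower (hb : Bornology.IsBounded M) (hB : ∀ t, |t| ≤ L → abs (f (abs t)) ≤ B) :
    Bornology.IsBounded (tower M f L) := by
  obtain ⟨R, hR⟩ := hb.exists_norm_le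
  rw [isBounded_iff_forall_norm_le]
  refine ⟨max (|B| * |R|) |L|, fun z hz => ?_⟩
  obtain ⟨h1, y, hy, hxy⟩ := hz
  have hRy := hR _ hy
  have hR0 : 0 ≤ R := le_trans (norm_nonneg _) hRy
  have hBR : 0 ≤ |B| * |R| := mul_nonneg (abs_nonneg _) (abs_nonneg _)
  rw [pi_norm_le_iff_of_nonneg (le_trans hBR (le_max_left _ _))]
  intro i
  cases i with
  | inl i =>
    have h2 := (pi_norm_le_iff_of_nonneg hR0).1 hRy i
    simp only [Real.norm_eq_abs] at h2 ⊢
    rw [hxy i, abs_mul]
    refine le_trans ?_ (le_max_left _ _)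
    exact mul_le_mul (le_trans (hB _ h1) (le_abs_self B)) (le_trans h2 (le_abs_self R))
      (abs_nonneg _) (abs_nonneg _)
  | inr u =>
    simp only [Real.norm_eq_abs]
    exact le_trans h1 (le_trans (le_abs_self L) (le_max_right _ _))

omit [Fintype ι] in
lemma convex_tower (hconc : ConcaveOn ℝ (Icc 0 L) f) (hanti : AntitoneOn f (Icc 0 L))
    (hnn : ∀ t ∈ Icc 0 L, 0 ≤ f t) (hMc : Convex ℝ M) (h0M : (0 : ι → ℝ) ∈ M) :
    Convex ℝ (tower M f L) := by
  intro z hz z' hz' a b ha hb hab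
  obtain ⟨h1, y, hy, hxy⟩ := hz
  obtain ⟨h1', y', hy', hxy'⟩ := hz'
  set t : ℝ := z (Sum.inr ()) with ht
  set t' : ℝ := z' (Sum.inr ()) with ht'
  have htm : |t| ∈ Icc 0 L := ⟨abs_nonneg _, h1⟩
  have htm' : |t'| ∈ Icc 0 L := ⟨abs_nonneg _, h1'⟩
  have hcoord : (a • z + b • z') (Sum.inr ()) = a * t + b * t' := by
    simp [ht, ht']
  have habs : |a * t + b * t'| ≤ a * |t| + b * |t'| := by
    calc |a * t + b * t'| ≤ |a * t| + |b * t'| := abs_add_le _ _
      _ = a * |t| + b * |t'| := by rw [abs_mul, abs_mul, abs_of_nonneg ha, abs_of_nonneg hb]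
  have hτm : a * |t| + b * |t'| ∈ Icc 0 L := by
    refine ⟨add_nonneg (mul_nonneg ha (abs_nonneg _)) (mul_nonneg hb (abs_nonneg _)), ?_⟩
    calc a * |t| + b * |t'| ≤ a * L + b * L :=
          add_le_add (mul_le_mul_of_nonneg_left h1 ha) (mul_le_mul_of_nonneg_left h1' hb)
      _ = L := by rw [← add_mul, hab, one_mul]
  have hsm : |a * t + b * t'| ∈ Icc 0 L := ⟨abs_nonneg _, le_trans habs hτm.2⟩
  have hF1 : f (a * |t| + b * |t'|) ≤ f |a * t + b * t'| := hanti hsm hτm habs
  have hF2 : a * f |t| + b * f |t'| ≤ f (a * |t| + b * |t'|) := by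
    have := hconc.2 htm htm' ha hb hab
    simpa [smul_eq_mul] using this
  have hu0 : 0 ≤ a * f |t| := mul_nonneg ha (hnn _ htm)
  have hv0 : 0 ≤ b * f |t'| := mul_nonneg hb (hnn _ htm')
  refine ⟨by rw [hcoord]; exact hsm.2, ?_⟩
  rw [hcoord]
  have hxcoord : ∀ i, (a • z + b • z') (Sum.inl i) = a * f |t| * y i + b * f |t'| * y' i := by
    intro i
    simp only [Pi.add_apply, Pi.smul_apply, smul_eq_mul]
    rw [hxy i, hxy' i]
    ring
  rcases (add_nonneg hu0 hv0).eq_or_lt with hg0 | hgpos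
  · refine ⟨0, h0M, fun i => ?_⟩
    have hu : a * f |t| = 0 := by linarith
    have hv : b * f |t'| = 0 := by linarith
    rw [hxcoord i, hu, hv]
    simp
  · set F : ℝ := f |a * t + b * t'| with hF
    set G : ℝ := a * f |t| + b * f |t'| with hG
    have hFpos : 0 < F := lt_of_lt_of_le hgpos (le_trans hF2 hF1)
    have hGF : G ≤ F := le_trans hF2 hF1
    have hybar : (a * f |t| / G) • y + (b * f |t'| / G) • y' ∈ M := by
      apply hMc hy hy' (div_nonneg hu0 hgpos.le) (div_nonneg hv0 hgpos.le)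
      rw [← add_div, div_self hgpos.ne']
    have hy2 : (G / F) • ((a * f |t| / G) • y + (b * f |t'| / G) • y') ∈ M :=
      hMc.smul_mem_of_zero_mem h0M hybar
        ⟨div_nonneg hgpos.le hFpos.le, (div_le_one hFpos).2 hGF⟩
    refine ⟨_, hy2, fun i => ?_⟩
    rw [hxcoord i]
    simp only [Pi.add_apply, Pi.smul_apply, smul_eq_mul]
    have hG' := hgpos.ne'
    have hF' := hFpos.ne'
    field_simp

lemma towerFactor_congr (m : ℕ) {f g : ℝ → ℝ} {L : ℝ} (hL : 0 ≤ L)
    (hfg : ∀ t ∈ Icc 0 L, g t = f t) : towerFactor m f L = towerFactor m g L := by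
  have e1 : ∫ t in (0:ℝ)..L, t ^ 2 * f t ^ m = ∫ t in (0:ℝ)..L, t ^ 2 * g t ^ m := by
    apply intervalIntegral.integral_congr
    intro t ht
    rw [uIcc_of_le hL] at ht
    simp only
    rw [hfg t ht]
  have e2 : ∀ k : ℕ, ∫ t in (0:ℝ)..L, f t ^ k = ∫ t in (0:ℝ)..L, g t ^ k := by
    intro k
    apply intervalIntegral.integral_congr
    intro t ht
    rw [uIcc_of_le hL] at ht
    simp only
    rw [hfg t ht]
  unfold towerFactor
  rw [e1, e2, e2]

end

end Vale.Agent.Helper22
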