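import Vale.Agent.Helper22.TowerGeom
import Vale.Agent.Helper22.TowerAux

/-!
The tower theorem: for a centred bounded measurable base `M` in dimension `m ≥ 2` and a
continuous, concave, nonincreasing, nonnegative profile `f` on `[0, L]`, the symmetric tower over
`M` has `det (Cov) / vol^2` equal to an explicit factor times that of `M`; the factor is at most
`(m + 2) / (8 (m + 3))`, which is smaller than the corresponding ratio for simplices.
-/

namespace Vale.Agent.Helper22

open MeasureTheory Set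

noncomputable section

variable {ι : Type*} [Fintype ι]

theorem tower_main [DecidableEq ι] (hdim : 2 ≤ Fintype.card ι)
    (M : Set (ι → ℝ)) (hM : MeasurableSet M) (hb : Bornology.IsBounded M)
    (hcen : ∀ i, mom1 M i = 0)
    (f : ℝ → ℝ) (L : ℝ) (hL : 0 < L)
    (hcont : ContinuousOn f (Icc 0 L)) (hconc : ConcaveOn ℝ (Icc 0 L) f)
    (hanti : AntitoneOn f (Icc 0 L)) (hnn : ∀ t ∈ Icc 0 L, 0 ≤ f t) (hf0 : 0 < f 0) :
    isoRatio (tower M f L) = towerFactor (Fintype.card ι) f L * isoRatio M ∧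
    0 ≤ towerFactor (Fintype.card ι) f L ∧
    towerFactor (Fintype.card ι) f L ≤
      ((Fintype.card ι : ℝ) + 2) / (8 * ((Fintype.card ι : ℝ) + 3)) ∧
    (isoRatio M ≤ isoRatio (stdSimp ι) →
      isoRatio (tower M f L) < isoRatio (stdSimp (ι ⊕ Unit))) ∧
    (MeasurableSet (tower M f L) ∧ Bornology.IsBounded (tower M f L) ∧
      ∀ p, mom1 (tower M f L) p = 0) ∧
    (Convex ℝ M → (0 : ι → ℝ) ∈ M → Convex ℝ (tower M f L)) := by
  set g : ℝ → ℝ := fun t => f (max 0 (min L t)) with hg
  have hclamp : ∀ t : ℝ, max 0 (min L t) ∈ Icc 0 L := fun t =>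
    ⟨le_max_left _ _, max_le hL.le (min_le_left _ _)⟩
  have hgeq : ∀ t ∈ Icc 0 L, g t = f t := by
    intro t ht
    simp only [hg]
    rw [min_eq_right ht.2, max_eq_right ht.1]
  have hgc : Continuous g :=
    hcont.comp_continuous (continuous_const.max (continuous_const.min continuous_id)) hclamp
  have hgconc : ConcaveOn ℝ (Icc 0 L) g := hconc.congr fun t ht => (hgeq t ht).symm
  have hganti : AntitoneOn g (Icc 0 L) := by
    intro a ha b hb' hab
    rw [hgeq a ha, hgeq b hb']
    exact hanti ha hb' hab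
  have hgnn : ∀ t ∈ Icc 0 L, 0 ≤ g t := fun t ht => by rw [hgeq t ht]; exact hnn t ht
  have h0m : (0:ℝ) ∈ Icc 0 L := ⟨le_refl _, hL.le⟩
  have hg0 : 0 < g 0 := by rw [hgeq 0 h0m]; exact hf0
  have htow : tower M f L = tower M g L := tower_congr M hgeq
  have hfac : towerFactor (Fintype.card ι) f L = towerFactor (Fintype.card ι) g L :=
    towerFactor_congr _ hL.le hgeq
  have hpos : ∀ t, |t| < L → 0 < g |t| := fun t ht =>
    pos_of_concave hgconc hgnn hg0 ⟨abs_nonneg t, ht⟩
  have hB : ∀ t, |t| < L → g |t| ≤ g 0 := fun t ht =>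
    hganti h0m ⟨abs_nonneg t, ht.le⟩ (abs_nonneg t)
  have hB' : ∀ t, |t| ≤ L → abs (g (abs t)) ≤ g 0 := fun t ht => by
    rw [abs_of_nonneg (hgnn _ ⟨abs_nonneg t, ht⟩)]
    exact hganti h0m ⟨abs_nonneg t, ht⟩ (abs_nonneg t)
  have hI : 0 < ∫ t in (0:ℝ)..L, g t ^ Fintype.card ι := int_pow_pos hgc hgconc hgnn hg0 hL _
  have hform : isoRatio (tower M g L) = towerFactor (Fintype.card ι) g L * isoRatio M :=
    isoRatio_tower hM hb hgc hL hpos hB hcen hI
  have hbound : towerFactor (Fintype.card ι) g L ≤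
      ((Fintype.card ι : ℝ) + 2) / (8 * ((Fintype.card ι : ℝ) + 3)) :=
    psi_bound hgc hgconc hganti hgnn hg0 hL _ hdim
  have hnonneg : 0 ≤ towerFactor (Fintype.card ι) g L := by
    unfold towerFactor
    apply div_nonneg
    · apply mul_nonneg
      · apply intervalIntegral.integral_nonneg hL.le
        intro t ht
        exact mul_nonneg (sq_nonneg t) (pow_nonneg (hgnn t ht) _)
      · exact pow_nonneg (int_pow_pos hgc hgconc hgnn hg0 hL _).le _
    · exact mul_nonneg (by norm_num) (pow_nonneg hI.le _)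
  rw [htow, hfac]
  refine ⟨hform, hnonneg, hbound, ?_, ⟨measurableSet_tower hM hgc L, isBounded_tower hb hB', ?_⟩,
    ?_⟩
  · intro hle
    have hsp : 0 < isoRatio (stdSimp ι) := isoRatio_stdSimp_pos
    rw [hform, isoRatio_stdSimp_succ]
    calc towerFactor (Fintype.card ι) g L * isoRatio M
        ≤ towerFactor (Fintype.card ι) g L * isoRatio (stdSimp ι) :=
          mul_le_mul_of_nonneg_left hle hnonneg
      _ ≤ ((Fintype.card ι : ℝ) + 2) / (8 * ((Fintype.card ι : ℝ) + 3)) * isoRatio (stdSimp ι) :=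
          mul_le_mul_of_nonneg_right hbound hsp.le
      _ < pyrConst (Fintype.card ι) * isoRatio (stdSimp ι) :=
          mul_lt_mul_of_pos_right (tower_const_lt _ hdim) hsp
  · intro p
    rcases p with i | u
    · rw [mom1_tower_inl hM hb hgc hL hpos hB, hcen i, zero_mul]
    · exact mom1_tower_inr hM hb hgc hL hpos hB
  · intro hMc h0M
    exact convex_tower hgconc hganti hgnn hMc h0M

end

end Vale.Agent.Helper22
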