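import Vale.Agent.Results.P138.ConstLowerBound

/-!
P138: the metric Markov cotype two inequality for chains with two states, in a real normed space,
with the sharp constant `C ^ 2 = 2`.
-/

namespace Vale.Agent.Helper22.TwoState

open Finset

/-- Entries of powers of a nonnegative matrix are nonnegative. -/
lemma pow_entry_nonneg {n : ℕ} (A : Matrix (Fin n) (Fin n) ℝ) (hA : ∀ i j, 0 ≤ A i j) :
    ∀ (s : ℕ) (i j : Fin n), 0 ≤ (A ^ s) i j := by
  intro s
  induction s with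
  | zero =>
    intro i j
    rw [pow_zero, Matrix.one_apply]
    split_ifs <;> norm_num
  | succ s ih =>
    intro i j
    rw [pow_succ, Matrix.mul_apply]
    exact Finset.sum_nonneg fun k _ => mul_nonneg (ih i k) (hA k j)

/-- Powers of a stochastic `2 × 2` matrix. -/
lemma pow_entries (A : Matrix (Fin 2) (Fin 2) ℝ) (hrow : ∀ i, ∑ j, A i j = 1) (s : ℕ) :
    (A ^ s) 0 0 + (A ^ s) 0 1 = 1 ∧ (A ^ s) 1 0 + (A ^ s) 1 1 = 1 ∧
    (A 0 1 + A 1 0) * (A ^ s) 0 1 = A 0 1 * (1 - (1 - A 0 1 - A 1 0) ^ s) ∧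
    (A 0 1 + A 1 0) * (A ^ s) 1 0 = A 1 0 * (1 - (1 - A 0 1 - A 1 0) ^ s) := by
  have h0 : A 0 0 + A 0 1 = 1 := by
    have := hrow 0
    rwa [Fin.sum_univ_two] at this
  have h1 : A 1 0 + A 1 1 = 1 := by
    have := hrow 1
    rwa [Fin.sum_univ_two] at this
  induction s with
  | zero => simp
  | succ s ih =>
    obtain ⟨e1, e2, e3, e4⟩ := ih
    have hA00 : A 0 0 = 1 - A 0 1 := by linarith
    have hA11 : A 1 1 = 1 - A 1 0 := by linarith
    have hP00 : (A ^ s) 0 0 = 1 - (A ^ s) 0 1 := by linarith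
    have hP11 : (A ^ s) 1 1 = 1 - (A ^ s) 1 0 := by linarith
    simp only [pow_succ, Matrix.mul_apply, Fin.sum_univ_two]
    rw [hA00, hA11, hP00, hP11]
    refine ⟨by ring, by ring, ?_, ?_⟩
    · linear_combination (1 - A 0 1 - A 1 0) * e3
    · linear_combination (1 - A 0 1 - A 1 0) * e4

lemma sum_Icc_cast' (t : ℕ) : ∑ s ∈ Finset.Icc 1 t, (s : ℝ) = (t : ℝ) * (t + 1) / 2 := by
  induction t with
  | zero => simp
  | succ t ih =>
    rw [Finset.sum_Icc_succ_top (by omega), ih]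
    push_cast
    ring

lemma pow_le_inv (μ : ℝ) (h0 : 0 ≤ μ) (h1 : μ ≤ 1) (s : ℕ) : (1 + s * μ) * (1 - μ) ^ s ≤ 1 := by
  induction s with
  | zero => simp
  | succ s ih =>
    have hp : 0 ≤ (1 - μ) ^ s := pow_nonneg (by linarith) s
    have h2 : (1 + ((s + 1 : ℕ) : ℝ) * μ) * (1 - μ) ≤ 1 + s * μ := by
      push_cast
      nlinarith [mul_nonneg (Nat.cast_nonneg s : (0:ℝ) ≤ s) (mul_nonneg h0 h0), mul_nonneg h0 h0]
    calc (1 + ((s + 1 : ℕ) : ℝ) * μ) * (1 - μ) ^ (s + 1)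
        = ((1 + ((s + 1 : ℕ) : ℝ) * μ) * (1 - μ)) * (1 - μ) ^ s := by rw [pow_succ]; ring
      _ ≤ (1 + s * μ) * (1 - μ) ^ s := mul_le_mul_of_nonneg_right h2 hp
      _ ≤ 1 := ih

lemma geom_closed (μ : ℝ) (t : ℕ) :
    μ * ∑ s ∈ Finset.Icc 1 t, (1 - μ) ^ s = (1 - μ) * (1 - (1 - μ) ^ t) := by
  induction t with
  | zero => simp
  | succ t ih =>
    rw [Finset.sum_Icc_succ_top (by omega), mul_add, ih, pow_succ]
    ring

/-- The scalar inequality behind the two-state case. -/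
lemma G_lower (μ : ℝ) (hμ0 : 0 < μ) (hμ2 : μ ≤ 2) (t : ℕ) (ht : 1 ≤ t) :
    (t : ℝ) ^ 2 * μ / (2 * (1 + 2 * t * μ)) ≤ ∑ s ∈ Finset.Icc 1 t, (1 - (1 - μ) ^ s) := by
  have ht0 : (0:ℝ) < t := by exact_mod_cast ht
  have hden : (0:ℝ) < 2 * (1 + 2 * t * μ) := by positivity
  rcases le_or_gt μ 1 with h1 | h1
  · -- termwise bound
    have hterm : ∀ s ∈ Finset.Icc 1 t, (s : ℝ) * (μ / (1 + t * μ)) ≤ 1 - (1 - μ) ^ s := by
      intro s hs
      have hst : (s : ℝ) ≤ t := by exact_mod_cast (Finset.mem_Icc.1 hs).2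
      have hs0 : (0:ℝ) ≤ s := Nat.cast_nonneg s
      have hpl := pow_le_inv μ hμ0.le h1 s
      have hpos : (0:ℝ) < 1 + s * μ := by positivity
      have hpos' : (0:ℝ) < 1 + t * μ := by positivity
      have h2 : (1 - μ) ^ s ≤ 1 / (1 + s * μ) := by
        rw [le_div_iff₀ hpos]
        linarith
      have h3 : (s : ℝ) * (μ / (1 + t * μ)) ≤ s * μ / (1 + s * μ) := by
        rw [← mul_div_assoc]
        apply div_le_div_of_nonneg_left (by positivity) hpos
        nlinarith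
      have h4 : (s : ℝ) * μ / (1 + s * μ) = 1 - 1 / (1 + s * μ) := by
        field_simp
        ring
      linarith
    have hsum := Finset.sum_le_sum hterm
    rw [← Finset.sum_mul, sum_Icc_cast'] at hsum
    refine le_trans ?_ hsum
    have hpos' : (0:ℝ) < 1 + t * μ := by positivity
    rw [div_le_iff₀ hden, ← mul_div_assoc, div_mul_eq_mul_div, le_div_iff₀ hpos']
    nlinarith [mul_pos ht0 hμ0, mul_pos (mul_pos ht0 ht0) hμ0, mul_pos (mul_pos ht0 hμ0) (mul_pos ht0 hμ0),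
      mul_pos (mul_pos ht0 ht0) (mul_pos hμ0 (mul_pos ht0 hμ0))]
  · -- negative ratio: the geometric sum is nonpositive
    have hgc := geom_closed μ t
    have habs : |1 - μ| ≤ 1 := by
      rw [abs_le]
      constructor <;> linarith
    have hpow : (1 - μ) ^ t ≤ 1 := by
      calc (1 - μ) ^ t ≤ |(1 - μ) ^ t| := le_abs_self _
        _ = |1 - μ| ^ t := abs_pow _ _
        _ ≤ 1 := pow_le_one₀ (abs_nonneg _) habs
    have hT : ∑ s ∈ Finset.Icc 1 t, (1 - μ) ^ s ≤ 0 := by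
      have h2 : μ * ∑ s ∈ Finset.Icc 1 t, (1 - μ) ^ s ≤ 0 := by
        rw [hgc]
        exact mul_nonpos_of_nonpos_of_nonneg (by linarith) (by linarith)
      by_contra hcon
      rw [not_le] at hcon
      have := mul_pos hμ0 hcon
      linarith
    have hG : ∑ s ∈ Finset.Icc 1 t, (1 - (1 - μ) ^ s) = t - ∑ s ∈ Finset.Icc 1 t, (1 - μ) ^ s := by
      rw [Finset.sum_sub_distrib]
      simp
    rw [hG, div_le_iff₀ hden]
    nlinarith [mul_pos ht0 hμ0, mul_pos (mul_pos ht0 ht0) hμ0]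

lemma rhs_eval {X : Type*} [PseudoMetricSpace X] (p : Fin 2 → ℝ) (c : Fin 2 → Fin 2 → ℝ)
    (x : Fin 2 → X) :
    ∑ i, ∑ j, p i * c i j * dist (x i) (x j) ^ 2
      = (p 0 * c 0 1 + p 1 * c 1 0) * dist (x 0) (x 1) ^ 2 := by
  simp only [Fin.sum_univ_two, dist_self]
  rw [dist_comm (x 1) (x 0)]
  ring

/-- The right-hand side of the cotype inequality is nonnegative. -/
lemma rhs_nonneg {X : Type*} [PseudoMetricSpace X] (t : ℕ) (p : Fin 2 → ℝ)
    (A : Matrix (Fin 2) (Fin 2) ℝ) (hp : ∀ i, 0 ≤ p i) (hA : ∀ i j, 0 ≤ A i j) (x : Fin 2 → X) :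
    0 ≤ ∑ i, ∑ j, p i * ((1 / (t : ℝ)) * ∑ s ∈ Finset.Icc 1 t, (A ^ s) i j)
      * dist (x i) (x j) ^ 2 := by
  refine Finset.sum_nonneg fun i _ => Finset.sum_nonneg fun j _ => ?_
  refine mul_nonneg (mul_nonneg (hp i) (mul_nonneg (by positivity) ?_)) (sq_nonneg _)
  exact Finset.sum_nonneg fun s _ => pow_entry_nonneg A hA s i j

/-- The metric Markov cotype two inequality for two-state chains in a real normed space, with
constant `C ^ 2 = 2`. -/
theorem two_state_normed {E : Type*} [NormedAddCommGroup E] [NormedSpace ℝ E] (t : ℕ)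
    (ht : 1 ≤ t) (p : Fin 2 → ℝ) (A : Matrix (Fin 2) (Fin 2) ℝ) (hp : ∀ i, 0 ≤ p i)
    (hA : ∀ i j, 0 ≤ A i j) (hrow : ∀ i, ∑ j, A i j = 1)
    (hrev : ∀ i j, p i * A i j = p j * A j i) (x : Fin 2 → E) :
    ∃ y : Fin 2 → E, ∑ i, p i * dist (x i) (y i) ^ 2
        + (t : ℝ) * ∑ i, ∑ j, p i * A i j * dist (y i) (y j) ^ 2
      ≤ 2 * ∑ i, ∑ j, p i * ((1 / (t : ℝ)) * ∑ s ∈ Finset.Icc 1 t, (A ^ s) i j)
          * dist (x i) (x j) ^ 2 := by
  have ht0 : (0:ℝ) < t := by exact_mod_cast ht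
  have hRnn := rhs_nonneg t p A hp hA x
  have hw01 : p 0 * A 0 1 = p 1 * A 1 0 := hrev 0 1
  have ha0 : 0 ≤ A 0 1 := hA 0 1
  have hb0 : 0 ≤ A 1 0 := hA 1 0
  have hw0 : 0 ≤ p 0 * A 0 1 := mul_nonneg (hp 0) ha0
  rcases hw0.eq_or_lt with hz | hpos
  · -- no flow between the states: take y = x
    refine ⟨x, ?_⟩
    have h1 : ∑ i, p i * dist (x i) (x i) ^ 2 = 0 := by simp
    have h2 : ∑ i, ∑ j, p i * A i j * dist (x i) (x j) ^ 2
        = (p 0 * A 0 1 + p 1 * A 1 0) * dist (x 0) (x 1) ^ 2 := rhs_eval p (fun i j => A i j) x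
    rw [h1, h2, ← hw01, ← hz]
    simp only [add_zero, zero_mul, mul_zero]
    linarith
  · -- positive flow
    obtain ⟨w, hw⟩ : ∃ w : ℝ, w = p 0 * A 0 1 := ⟨_, rfl⟩
    obtain ⟨a, ha⟩ : ∃ a : ℝ, a = A 0 1 := ⟨_, rfl⟩
    obtain ⟨b, hb⟩ : ∃ b : ℝ, b = A 1 0 := ⟨_, rfl⟩
    rw [← ha] at ha0 hw hpos
    rw [← hb] at hb0
    rw [← ha, ← hb] at hw01
    have hwpos : 0 < w := by rw [hw]; exact hpos
    have hp0pos : 0 < p 0 := by
      rcases (hp 0).eq_or_lt with h | h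
      · rw [← h] at hpos; simp at hpos
      · exact h
    have hapos : 0 < a := by
      rcases ha0.eq_or_lt with h | h
      · rw [← h] at hpos; simp at hpos
      · exact h
    have hw1 : p 1 * b = w := by rw [hw, hw01]
    have hbpos : 0 < b := by
      rcases hb0.eq_or_lt with h | h
      · rw [← h] at hw1; simp at hw1; linarith
      · exact h
    have hrow0 : A 0 0 + A 0 1 = 1 := by
      have := hrow 0
      rwa [Fin.sum_univ_two] at this
    have hrow1 : A 1 0 + A 1 1 = 1 := by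
      have := hrow 1
      rwa [Fin.sum_univ_two] at this
    have ha1 : a ≤ 1 := by have := hA 0 0; rw [ha]; linarith
    have hb1 : b ≤ 1 := by have := hA 1 1; rw [hb]; linarith
    obtain ⟨μ, hμ⟩ : ∃ μ : ℝ, μ = a + b := ⟨_, rfl⟩
    have hμ0 : 0 < μ := by rw [hμ]; linarith
    have hμ2 : μ ≤ 2 := by rw [hμ]; linarith
    have hden : (0:ℝ) < 1 + 2 * t * μ := by positivity
    obtain ⟨r, hr⟩ : ∃ r : ℝ, r = 1 / (1 + 2 * t * μ) := ⟨_, rfl⟩
    have hrpos : 0 < r := by rw [hr]; positivity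
    have hr1 : r * (1 + 2 * t * (a + b)) = 1 := by
      rw [hr, hμ]; field_simp
    obtain ⟨α, hα⟩ : ∃ α : ℝ, α = 2 * t * a * r := ⟨_, rfl⟩
    obtain ⟨γ, hγ⟩ : ∃ γ : ℝ, γ = 2 * t * b * r := ⟨_, rfl⟩
    have hα0 : 0 ≤ α := by rw [hα]; positivity
    have hγ0 : 0 ≤ γ := by rw [hγ]; positivity
    obtain ⟨d, hd⟩ : ∃ d : E, d = x 1 - x 0 := ⟨_, rfl⟩
    obtain ⟨N, hN⟩ : ∃ N : ℝ, N = ‖d‖ := ⟨_, rfl⟩
    refine ⟨![x 0 + α • d, x 1 - γ • d], ?_⟩
    have d00 : dist (x 0) (x 0 + α • d) = α * N := by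
      rw [dist_eq_norm, hN]
      have : x 0 - (x 0 + α • d) = -(α • d) := by abel
      rw [this, norm_neg, norm_smul, Real.norm_of_nonneg hα0]
    have d11 : dist (x 1) (x 1 - γ • d) = γ * N := by
      rw [dist_eq_norm, hN]
      have : x 1 - (x 1 - γ • d) = γ • d := by abel
      rw [this, norm_smul, Real.norm_of_nonneg hγ0]
    have hsum1 : α + γ - 1 = -r := by
      rw [hα, hγ]
      linear_combination hr1
    have d01 : dist (x 0 + α • d) (x 1 - γ • d) = r * N := by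
      rw [dist_eq_norm, hN]
      have : (x 0 + α • d) - (x 1 - γ • d) = (α + γ - 1) • d := by
        rw [hd]
        simp only [sub_smul, add_smul, one_smul, smul_sub]
        abel
      rw [this, hsum1, norm_smul, norm_neg, Real.norm_of_nonneg hrpos.le]
    have dxx : dist (x 0) (x 1) = N := by
      rw [dist_eq_norm, hN, hd, norm_sub_rev]
    -- evaluate both sides
    have hL1 : ∑ i, p i * dist (x i) ((![x 0 + α • d, x 1 - γ • d] : Fin 2 → E) i) ^ 2
        = p 0 * (α * N) ^ 2 + p 1 * (γ * N) ^ 2 := by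
      rw [Fin.sum_univ_two]
      simp only [Matrix.cons_val_zero, Matrix.cons_val_one]
      rw [d00, d11]
    have hL2 : ∑ i, ∑ j, p i * A i j * dist ((![x 0 + α • d, x 1 - γ • d] : Fin 2 → E) i)
        ((![x 0 + α • d, x 1 - γ • d] : Fin 2 → E) j) ^ 2
        = (p 0 * a + p 1 * b) * (r * N) ^ 2 := by
      have := rhs_eval p (fun i j => A i j) (![x 0 + α • d, x 1 - γ • d] : Fin 2 → E)
      simp only [Matrix.cons_val_zero, Matrix.cons_val_one] at this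
      rw [d01, ← ha, ← hb] at this
      exact this
    have hR : ∑ i, ∑ j, p i * ((1 / (t : ℝ)) * ∑ s ∈ Finset.Icc 1 t, (A ^ s) i j)
        * dist (x i) (x j) ^ 2
        = (p 0 * ((1 / (t : ℝ)) * ∑ s ∈ Finset.Icc 1 t, (A ^ s) 0 1)
          + p 1 * ((1 / (t : ℝ)) * ∑ s ∈ Finset.Icc 1 t, (A ^ s) 1 0)) * N ^ 2 := by
      have := rhs_eval p (fun i j => (1 / (t : ℝ)) * ∑ s ∈ Finset.Icc 1 t, (A ^ s) i j) x
      rw [dxx] at this
      exact this
    rw [hL1, hL2, hR]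
    -- the Cesaro sums
    obtain ⟨G, hG⟩ : ∃ G : ℝ, G = ∑ s ∈ Finset.Icc 1 t, (1 - (1 - μ) ^ s) := ⟨_, rfl⟩
    have hS01 : μ * ∑ s ∈ Finset.Icc 1 t, (A ^ s) 0 1 = a * G := by
      rw [hG, Finset.mul_sum, Finset.mul_sum]
      refine Finset.sum_congr rfl fun s _ => ?_
      have := (pow_entries A hrow s).2.2.1
      rw [← ha, ← hb] at this
      rw [hμ]
      have e : 1 - (a + b) = 1 - a - b := by ring
      rw [e]
      exact this
    have hS10 : μ * ∑ s ∈ Finset.Icc 1 t, (A ^ s) 1 0 = b * G := by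
      rw [hG, Finset.mul_sum, Finset.mul_sum]
      refine Finset.sum_congr rfl fun s _ => ?_
      have := (pow_entries A hrow s).2.2.2
      rw [← ha, ← hb] at this
      rw [hμ]
      have e : 1 - (a + b) = 1 - a - b := by ring
      rw [e]
      exact this
    obtain ⟨Q, hQ⟩ : ∃ Q : ℝ, Q = p 0 * ((1 / (t : ℝ)) * ∑ s ∈ Finset.Icc 1 t, (A ^ s) 0 1)
        + p 1 * ((1 / (t : ℝ)) * ∑ s ∈ Finset.Icc 1 t, (A ^ s) 1 0) := ⟨_, rfl⟩
    rw [← hQ]
    have hμQ : μ * Q = 2 * w * G / t := by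
      have e : μ * Q = (1 / (t : ℝ)) * (p 0 * (μ * ∑ s ∈ Finset.Icc 1 t, (A ^ s) 0 1)
          + p 1 * (μ * ∑ s ∈ Finset.Icc 1 t, (A ^ s) 1 0)) := by
        rw [hQ]; ring
      rw [e, hS01, hS10]
      have e2 : p 0 * (a * G) + p 1 * (b * G) = 2 * w * G := by
        linear_combination G * hw.symm + G * hw1
      rw [e2]
      field_simp
    have hGl := G_lower μ hμ0 hμ2 t ht
    rw [← hG] at hGl
    have hGl' : (t : ℝ) ^ 2 * μ * r / 2 ≤ G := by
      have e : (t : ℝ) ^ 2 * μ * r / 2 = (t : ℝ) ^ 2 * μ / (2 * (1 + 2 * t * μ)) := by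
        rw [hr]; field_simp
      rw [e]; exact hGl
    have hQl : w * t * r ≤ Q := by
      have h3 : μ * (w * t * r) ≤ μ * Q := by
        rw [hμQ]
        have h4 : 2 * w / t * ((t : ℝ) ^ 2 * μ * r / 2) ≤ 2 * w / t * G :=
          mul_le_mul_of_nonneg_left hGl' (by positivity)
        have e1 : 2 * w / t * ((t : ℝ) ^ 2 * μ * r / 2) = μ * (w * t * r) := by
          field_simp
        have e2 : 2 * w / t * G = 2 * w * G / t := by ring
        linarith
      exact le_of_mul_le_mul_left h3 hμ0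
    have hLeq : p 0 * (α * N) ^ 2 + p 1 * (γ * N) ^ 2 + (t : ℝ) * ((p 0 * a + p 1 * b) * (r * N) ^ 2)
        = 2 * t * w * r * N ^ 2 := by
      rw [hα, hγ]
      linear_combination (4 * (t:ℝ) ^ 2 * a * r ^ 2 * N ^ 2 + t * r ^ 2 * N ^ 2) * hw.symm
        + (4 * (t:ℝ) ^ 2 * b * r ^ 2 * N ^ 2 + t * r ^ 2 * N ^ 2) * hw1
        + (2 * t * w * r * N ^ 2) * hr1
    rw [hLeq]
    have := mul_le_mul_of_nonneg_right hQl (sq_nonneg N)
    linarith

open Vale.Agent.Results.P138.ConstLowerBound in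
/-- The cotype inequality for the lazy two-state chain and the two points `u`, `v`, from the
two-state property only. -/
lemma instance_ineq2 (X : Type) [PseudoMetricSpace X] (u v : X) (C : ℝ)
    (h : ∀ (t : ℕ), 1 ≤ t → ∀ (p : Fin 2 → ℝ) (A : Matrix (Fin 2) (Fin 2) ℝ),
      (∀ i, 0 ≤ p i) → ∑ i, p i = 1 → (∀ i j, 0 ≤ A i j) → (∀ i, ∑ j, A i j = 1) →
      (∀ i j, p i * A i j = p j * A j i) →
      ∀ x : Fin 2 → X, ∃ y : Fin 2 → X,
        ∑ i, p i * dist (x i) (y i) ^ 2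
            + (t : ℝ) * ∑ i, ∑ j, p i * A i j * dist (y i) (y j) ^ 2
          ≤ C ^ 2 * ∑ i, ∑ j,
              p i * ((1 / (t : ℝ)) * ∑ s ∈ Finset.Icc 1 t, (A ^ s) i j) * dist (x i) (x j) ^ 2)
    (t : ℕ) (ht1 : 1 ≤ t) (q : ℝ) (hq0 : 0 ≤ q) (hq1 : q ≤ 1) :
    ∃ y0 y1 : X, dist u y0 ^ 2 / 2 + dist v y1 ^ 2 / 2 + (t : ℝ) * q * dist y0 y1 ^ 2
      ≤ C ^ 2 * ((1 / (t : ℝ)) * (∑ s ∈ Finset.Icc 1 t, (1 - (1 - 2 * q) ^ s) / 2)
          * dist u v ^ 2) := by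
  obtain ⟨y, hy⟩ := h t ht1 (fun _ => 1 / 2) (twoState q)
    (fun _ => by norm_num) (by simp)
    (by
      intro i j
      fin_cases i <;> fin_cases j <;> simp [twoState] <;> linarith)
    (by
      intro i
      fin_cases i <;> simp [twoState, Fin.sum_univ_two])
    (by
      intro i j
      fin_cases i <;> fin_cases j <;> simp [twoState])
    (fun i => if i = 0 then u else v)
  refine ⟨y 0, y 1, ?_⟩
  simp only [Fin.sum_univ_two, twoState_pow] at hy
  simp [twoState] at hy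
  rw [dist_comm (y 1) (y 0), dist_comm v u] at hy
  rw [one_div]
  linarith

open Vale.Agent.Results.P138.ConstLowerBound in
/-- Two-state chains already force `C ^ 2 ≥ 2`. -/
theorem lower_bound2 (X : Type) [PseudoMetricSpace X] (u v : X) (huv : 0 < dist u v) (C : ℝ)
    (h : ∀ (t : ℕ), 1 ≤ t → ∀ (p : Fin 2 → ℝ) (A : Matrix (Fin 2) (Fin 2) ℝ),
      (∀ i, 0 ≤ p i) → ∑ i, p i = 1 → (∀ i j, 0 ≤ A i j) → (∀ i, ∑ j, A i j = 1) →
      (∀ i j, p i * A i j = p j * A j i) →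
      ∀ x : Fin 2 → X, ∃ y : Fin 2 → X,
        ∑ i, p i * dist (x i) (y i) ^ 2
            + (t : ℝ) * ∑ i, ∑ j, p i * A i j * dist (y i) (y j) ^ 2
          ≤ C ^ 2 * ∑ i, ∑ j,
              p i * ((1 / (t : ℝ)) * ∑ s ∈ Finset.Icc 1 t, (A ^ s) i j) * dist (x i) (x j) ^ 2) :
    2 ≤ C ^ 2 := by
  by_contra hlt
  rw [not_le] at hlt
  have hC0 : 0 ≤ C ^ 2 := sq_nonneg C
  obtain ⟨t, ht⟩ := exists_nat_gt (18 / (2 - C ^ 2) + 1)
  have hpos : 0 < 18 / (2 - C ^ 2) := by apply div_pos <;> linarith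
  have htpos : (1 : ℝ) < t := by linarith
  have ht1 : 1 ≤ t := by
    have : (1 : ℝ) ≤ t := htpos.le
    exact_mod_cast this
  have ht0 : (0 : ℝ) < t := by linarith
  have hq0 : 0 < 1 / (t : ℝ) ^ 2 := by positivity
  have hq1 : 1 / (t : ℝ) ^ 2 ≤ 1 := by
    rw [div_le_one (by positivity)]
    nlinarith
  obtain ⟨y0, y1, hy⟩ := instance_ineq2 X u v C h t ht1 (1 / (t : ℝ) ^ 2) hq0.le hq1
  have htri : dist u v ≤ dist u y0 + dist v y1 + dist y0 y1 := by
    have h1 : dist u v ≤ dist u y0 + dist y0 v := dist_triangle _ _ _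
    have h2 : dist y0 v ≤ dist y0 y1 + dist y1 v := dist_triangle _ _ _
    have h3 : dist y1 v = dist v y1 := dist_comm _ _
    linarith
  have hfin := arith (t : ℝ) (1 / (t : ℝ) ^ 2) (dist u v) _ (dist u y0) (dist v y1) (dist y0 y1)
    (C ^ 2) htpos.le hq0 (by field_simp) huv (cesaro_le _ hq1 t) dist_nonneg dist_nonneg
    dist_nonneg htri hC0 hy
  have h7 : 18 < (2 - C ^ 2) * (t : ℝ) := by
    have h8 : 18 / (2 - C ^ 2) < t := by linarith
    rw [div_lt_iff₀ (by linarith)] at h8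
    linarith
  nlinarith

end Vale.Agent.Helper22.TwoState
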